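import Vale.Agent.P219.Flat.Fourteen.Trees

/-!
# P219, dimension fourteen: single rows on their boxes
-/

namespace Vale.Agent.P219.CH.Flat.Fourteen

open Vale.Agent.P219.Poly Vale.Agent.P219.Poly.E Vale.Agent.P219.Poly.E.Subdiv

theorem rim0_ok : Subdiv.ok unitGood (fun _ => [rowRim]) rim0T (root 0 unitSide) = true := by
  decide +kernel

theorem rim1_ok : Subdiv.ok unitGood (fun _ => [rowRim]) rim1T (root 1 unitSide) = true := by
  decide +kernel

theorem rim2_ok : Subdiv.ok unitGood (fun _ => [rowRim]) rim2T (root 2 unitSide) = true := by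
  decide +kernel

theorem sl20_ok : Subdiv.ok unitGood (fun _ => [rowSl2]) sl20T (root 0 unitSide) = true := by
  decide +kernel

theorem sl21_ok : Subdiv.ok unitGood (fun _ => [rowSl2]) sl21T (root 1 unitSide) = true := by
  decide +kernel

theorem sl22_ok : Subdiv.ok unitGood (fun _ => [rowSl2]) sl22T (root 2 unitSide) = true := by
  decide +kernel

theorem sl40_ok : Subdiv.ok unitGood (fun _ => [rowSl4]) sl40T (root 0 unitSide) = true := by
  decide +kernel

theorem sl41_ok : Subdiv.ok unitGood (fun _ => [rowSl4]) sl41T (root 1 unitSide) = true := by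
  decide +kernel

theorem sl42_ok : Subdiv.ok unitGood (fun _ => [rowSl4]) sl42T (root 2 unitSide) = true := by
  decide +kernel

theorem mono0_ok : Subdiv.ok unitGood (fun _ => [rowMono]) mono0T (root 0 unitSide) = true := by
  decide +kernel

theorem mono1_ok : Subdiv.ok unitGood (fun _ => [rowMono]) mono1T (root 1 unitSide) = true := by
  decide +kernel

theorem mono2_ok : Subdiv.ok unitGood (fun _ => [rowMono]) mono2T (root 2 unitSide) = true := by
  decide +kernel

theorem out0_ok : Subdiv.ok unitGood (fun _ => [rowOut]) out0T (root 0 unitSide) = true := by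
  decide +kernel

theorem out1_ok : Subdiv.ok unitGood (fun _ => [rowOut]) out1T (root 1 unitSide) = true := by
  decide +kernel

theorem out2_ok : Subdiv.ok unitGood (fun _ => [rowOut]) out2T (root 2 unitSide) = true := by
  decide +kernel

theorem aRow0_ok : Subdiv.ok unitGood (fun _ => [rowA]) aRow0T (root 0 unitSide) = true := by
  decide +kernel

theorem gain0_ok : Subdiv.ok gainGood gainRows gain0T (root 0 unitSide) = true := by
  decide +kernel

theorem gain2_ok : Subdiv.ok gainGood gainRows gain2T (root 2 unitSide) = true := by
  decide +kernel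

theorem mix0_ok : Subdiv.ok mixGood mixRows mix0T (root 0 unitSide) = true := by
  decide +kernel

theorem mix1_ok : Subdiv.ok mixGood mixRows mix1T (root 1 unitSide) = true := by
  decide +kernel

theorem mix2_ok : Subdiv.ok mixGood mixRows mix2T (root 2 unitSide) = true := by
  decide +kernel

end Vale.Agent.P219.CH.Flat.Fourteen
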