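import Vale.Agent.P219.Flat.Fourteen.BoxesConeLo

/-!
# P219, dimension fourteen: the corner row on its boxes
-/

namespace Vale.Agent.P219.CH.Flat.Fourteen

open Vale.Agent.P219.Poly Vale.Agent.P219.Poly.E Vale.Agent.P219.Poly.E.Subdiv

theorem cone0_hi_ok : Subdiv.ok boolGood coneRows
    (.node 0 (.node 0 (.node 1 (.leaf false) (.leaf false)) (.leaf true))
      (.node 0 (.leaf true) (.leaf true)))
    (setSide coneRoot 0 (coneRoot 0).hi) = true := by
  decide +kernel

theorem cone0_ok : Subdiv.ok boolGood coneRows cone0T coneRoot = true :=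
  Subdiv.ok_node cone0_lo_ok cone0_hi_ok

end Vale.Agent.P219.CH.Flat.Fourteen
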