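import Vale.Agent.P219.Flat.Fourteen.Trees

/-!
# P219, dimension fourteen: the gain row on a group of its boxes
-/

namespace Vale.Agent.P219.CH.Flat.Fourteen

open Vale.Agent.P219.Poly Vale.Agent.P219.Poly.E Vale.Agent.P219.Poly.E.Subdiv

theorem gain1_ok_babbbaa : Subdiv.ok gainGood gainRows gain1Tbabbbaa gain1Bbabbbaa = true := by
  decide +kernel

theorem gain1_ok_babbbaba : Subdiv.ok gainGood gainRows gain1Tbabbbaba gain1Bbabbbaba = true := by
  decide +kernel

theorem gain1_ok_babbbabb : Subdiv.ok gainGood gainRows gain1Tbabbbabb gain1Bbabbbabb = true := by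
  decide +kernel

theorem gain1_ok_babbbbaa : Subdiv.ok gainGood gainRows gain1Tbabbbbaa gain1Bbabbbbaa = true := by
  decide +kernel

theorem gain1_ok_babbbbabaa : Subdiv.ok gainGood gainRows gain1Tbabbbbabaa gain1Bbabbbbabaa = true := by
  decide +kernel

end Vale.Agent.P219.CH.Flat.Fourteen
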