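import Vale.Agent.P219.Flat.Fourteen.Trees

/-!
# P219, dimension fourteen: the gain row on a group of its boxes
-/

namespace Vale.Agent.P219.CH.Flat.Fourteen

open Vale.Agent.P219.Poly Vale.Agent.P219.Poly.E Vale.Agent.P219.Poly.E.Subdiv

theorem gain1_ok_babbbbabab : Subdiv.ok gainGood gainRows gain1Tbabbbbabab gain1Bbabbbbabab = true := by
  decide +kernel

theorem gain1_ok_babbbbabb : Subdiv.ok gainGood gainRows gain1Tbabbbbabb gain1Bbabbbbabb = true := by
  decide +kernel

theorem gain1_ok_babbbbbaaa : Subdiv.ok gainGood gainRows gain1Tbabbbbbaaa gain1Bbabbbbbaaa = true := by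
  decide +kernel

theorem gain1_ok_babbbbbaab : Subdiv.ok gainGood gainRows gain1Tbabbbbbaab gain1Bbabbbbbaab = true := by
  decide +kernel

end Vale.Agent.P219.CH.Flat.Fourteen
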