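import Vale.Agent.P219.Flat.Fourteen.Trees

/-!
# P219, dimension fourteen: the gain row on a group of its boxes
-/

namespace Vale.Agent.P219.CH.Flat.Fourteen

open Vale.Agent.P219.Poly Vale.Agent.P219.Poly.E Vale.Agent.P219.Poly.E.Subdiv

theorem gain1_ok_babbbbbab : Subdiv.ok gainGood gainRows gain1Tbabbbbbab gain1Bbabbbbbab = true := by
  decide +kernel

theorem gain1_ok_babbbbbba : Subdiv.ok gainGood gainRows gain1Tbabbbbbba gain1Bbabbbbbba = true := by
  decide +kernel

theorem gain1_ok_babbbbbbb : Subdiv.ok gainGood gainRows gain1Tbabbbbbbb gain1Bbabbbbbbb = true := by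
  decide +kernel

theorem gain1_ok_bba : Subdiv.ok gainGood gainRows gain1Tbba gain1Bbba = true := by
  decide +kernel

theorem gain1_ok_bbba : Subdiv.ok gainGood gainRows gain1Tbbba gain1Bbbba = true := by
  decide +kernel

theorem gain1_ok_bbbba : Subdiv.ok gainGood gainRows gain1Tbbbba gain1Bbbbba = true := by
  decide +kernel

theorem gain1_ok_bbbbba : Subdiv.ok gainGood gainRows gain1Tbbbbba gain1Bbbbbba = true := by
  decide +kernel

theorem gain1_ok_bbbbbba : Subdiv.ok gainGood gainRows gain1Tbbbbbba gain1Bbbbbbba = true := by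
  decide +kernel

end Vale.Agent.P219.CH.Flat.Fourteen
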