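import Vale.Agent.P219.Flat.Fourteen.BoxesGainA
import Vale.Agent.P219.Flat.Fourteen.BoxesGainB
import Vale.Agent.P219.Flat.Fourteen.BoxesGainC
import Vale.Agent.P219.Flat.Fourteen.BoxesGainD
import Vale.Agent.P219.Flat.Fourteen.BoxesGainE
import Vale.Agent.P219.Flat.Fourteen.BoxesGainF

/-!
# P219, dimension fourteen: the gain row on its boxes
-/

namespace Vale.Agent.P219.CH.Flat.Fourteen

open Vale.Agent.P219.Poly Vale.Agent.P219.Poly.E Vale.Agent.P219.Poly.E.Subdiv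

theorem gain1_ok : Subdiv.ok gainGood gainRows gain1T (root 1 unitSide) = true :=
  (Subdiv.ok_node gain1_ok_a (Subdiv.ok_node (Subdiv.ok_node gain1_ok_baa (Subdiv.ok_node gain1_ok_baba (Subdiv.ok_node (Subdiv.ok_node (Subdiv.ok_node gain1_ok_babbaaa (Subdiv.ok_node gain1_ok_babbaaba gain1_ok_babbaabb)) (Subdiv.ok_node (Subdiv.ok_node gain1_ok_babbabaa gain1_ok_babbabab) gain1_ok_babbabb)) (Subdiv.ok_node (Subdiv.ok_node gain1_ok_babbbaa (Subdiv.ok_node gain1_ok_babbbaba gain1_ok_babbbabb)) (Subdiv.ok_node (Subdiv.ok_node gain1_ok_babbbbaa (Subdiv.ok_node (Subdiv.ok_node gain1_ok_babbbbabaa gain1_ok_babbbbabab) gain1_ok_babbbbabb)) (Subdiv.ok_node (Subdiv.ok_node (Subdiv.ok_node gain1_ok_babbbbbaaa gain1_ok_babbbbbaab) gain1_ok_babbbbbab) (Subdiv.ok_node gain1_ok_babbbbbba gain1_ok_babbbbbbb))))))) (Subdiv.ok_node gain1_ok_bba (Subdiv.ok_node gain1_ok_bbba (Subdiv.ok_node gain1_ok_bbbba (Subdiv.ok_node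 gain1_ok_bbbbba (Subdiv.ok_node gain1_ok_bbbbbba gain1_ok_bbbbbbb)))))))

end Vale.Agent.P219.CH.Flat.Fourteen
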