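import Vale.Agent.P219.Flat.Fourteen.Trees

/-!
# P219, dimension fourteen: the gain row on a group of its boxes
-/

namespace Vale.Agent.P219.CH.Flat.Fourteen

open Vale.Agent.P219.Poly Vale.Agent.P219.Poly.E Vale.Agent.P219.Poly.E.Subdiv

theorem gain1_ok_a : Subdiv.ok gainGood gainRows gain1Ta gain1Ba = true := by
  decide +kernel

theorem gain1_ok_baa : Subdiv.ok gainGood gainRows gain1Tbaa gain1Bbaa = true := by
  decide +kernel

theorem gain1_ok_baba : Subdiv.ok gainGood gainRows gain1Tbaba gain1Bbaba = true := by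
  decide +kernel

theorem gain1_ok_babbaaa : Subdiv.ok gainGood gainRows gain1Tbabbaaa gain1Bbabbaaa = true := by
  decide +kernel

theorem gain1_ok_babbaaba : Subdiv.ok gainGood gainRows gain1Tbabbaaba gain1Bbabbaaba = true := by
  decide +kernel

end Vale.Agent.P219.CH.Flat.Fourteen
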