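import Vale.Agent.P219.Flat.Fourteen.Trees

/-!
# P219, dimension fourteen: the pair rows above the half on their boxes
-/

namespace Vale.Agent.P219.CH.Flat.Fourteen

open Vale.Agent.P219.Poly Vale.Agent.P219.Poly.E Vale.Agent.P219.Poly.E.Subdiv

theorem hi0_ok : Subdiv.ok boolGood hiRows hi0T (root 0 hiSide) = true := by
  decide +kernel

theorem hi1_ok : Subdiv.ok boolGood hiRows hi1T (root 1 hiSide) = true := by
  decide +kernel

theorem hi2_ok : Subdiv.ok boolGood hiRows hi2T (root 2 hiSide) = true := by
  decide +kernel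

end Vale.Agent.P219.CH.Flat.Fourteen
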