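import Vale.Agent.P219.Flat.Fourteen.Trees

/-!
# P219, dimension fourteen: the pair rows on their boxes
-/

namespace Vale.Agent.P219.CH.Flat.Fourteen

open Vale.Agent.P219.Poly Vale.Agent.P219.Poly.E Vale.Agent.P219.Poly.E.Subdiv

theorem q0_ok : Subdiv.ok unitGood (fun _ => [rowQ0]) q0T (root 0 unitSide) = true := by
  decide +kernel

theorem q1_ok : Subdiv.ok unitGood (fun _ => [rowQ0]) q1T (root 1 unitSide) = true := by
  decide +kernel

theorem q2_ok : Subdiv.ok unitGood (fun _ => [rowQ0]) q2T (root 2 unitSide) = true := by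
  decide +kernel

theorem lo0_ok : Subdiv.ok unitGood (fun _ => [rowLo]) lo0T (root 0 loSide) = true := by
  decide +kernel

theorem lo1_ok : Subdiv.ok unitGood (fun _ => [rowLo]) lo1T (root 1 loSide) = true := by
  decide +kernel

theorem lo2_ok : Subdiv.ok unitGood (fun _ => [rowLo]) lo2T (root 2 loSide) = true := by
  decide +kernel

end Vale.Agent.P219.CH.Flat.Fourteen
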