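import Vale.Agent.P219.Flat.Fourteen.Facts
import Vale.Agent.P219.Gen.Law
import Vale.Agent.P219.Flat.Assembly
import Vale.Agent.P219.Flat.Strict.Main

/-!
# P219, dimension fourteen: the value, and the certificate

The cosine has density proportional to `(1 - c ^ 2) ^ (11 / 2)`; both integrals have antiderivatives
`c`-polynomial times the square root plus a multiple of the arcsine.
-/

noncomputable section

open MeasureTheory Set Filter Topology Matrix
open scoped ENNReal

namespace Vale.Agent.P219.CH.Flat.Fourteen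

open Gen Gen.Law Gen.Moment

/-- The density of the cosine. -/
def dens (c : ℝ) : ℝ := (1 - c ^ 2) ^ 5 * Real.sqrt (1 - c ^ 2)

lemma dens_nonneg {c : ℝ} (hc : c ∈ Icc (-1 : ℝ) 1) : 0 ≤ dens c :=
  mul_nonneg (pow_nonneg (by nlinarith [hc.1, hc.2]) 5) (Real.sqrt_nonneg _)

lemma continuous_dens : Continuous dens := by
  unfold dens
  fun_prop

theorem lintegral_subst_fourteen (g : ℝ → ℝ≥0∞) :
    ∫⁻ τ : ℝ, ENNReal.ofReal ((Real.sqrt (1 + τ ^ 2))⁻¹ ^ (13 + 1)) *
        g (τ / Real.sqrt (1 + τ ^ 2)) =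
      ∫⁻ c in Ioo (-1 : ℝ) 1, ENNReal.ofReal (dens c) * g c := by
  have h := lintegral_subst 5 fun c => ENNReal.ofReal (Real.sqrt (1 - c ^ 2)) * g c
  rw [setLIntegral_congr_fun measurableSet_Ioo
    (g := fun c => ENNReal.ofReal ((1 - c ^ 2) ^ 5) *
      (ENNReal.ofReal (Real.sqrt (1 - c ^ 2)) * g c)) fun c hc => ?_]
  · rw [← h]
    refine lintegral_congr fun τ => ?_
    have hs : 0 < Real.sqrt (1 + τ ^ 2) := Real.sqrt_pos.2 (by positivity)
    have e : Real.sqrt (1 - (τ / Real.sqrt (1 + τ ^ 2)) ^ 2) = (Real.sqrt (1 + τ ^ 2))⁻¹ := by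
      rw [← Real.sqrt_sq (inv_pos.2 hs).le, div_pow, inv_pow, Real.sq_sqrt (by positivity)]
      congr 1
      have : (1 : ℝ) + τ ^ 2 ≠ 0 := by positivity
      field_simp
      ring
    rw [e, ← mul_assoc, ← ENNReal.ofReal_mul (by positivity), ← pow_succ]
  · have : 0 ≤ 1 - c ^ 2 := by nlinarith [hc.1, hc.2]
    simp only [dens, ← mul_assoc, ENNReal.ofReal_mul (pow_nonneg this 5)]

/-- The derivative of the square root times a function, plus a multiple of the arcsine. -/
lemma hasDerivAt_prim {P : ℝ → ℝ} {P' k t : ℝ} (hP : HasDerivAt P P' t) (h1 : -1 < t) (h2 : t < 1) :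
    HasDerivAt (fun c => P c * Real.sqrt (1 - c ^ 2) + k * Real.arcsin c)
      ((P' * (1 - t ^ 2) - t * P t + k) / Real.sqrt (1 - t ^ 2)) t := by
  have hW : 0 < 1 - t ^ 2 := by nlinarith
  have hS : HasDerivAt (fun c : ℝ => Real.sqrt (1 - c ^ 2)) (-t / Real.sqrt (1 - t ^ 2)) t := by
    refine (((hasDerivAt_pow 2 t).const_sub 1).sqrt hW.ne').congr_deriv ?_
    push_cast
    field_simp
  refine ((hP.mul hS).add ((Real.hasDerivAt_arcsin h1.ne' h2.ne).const_mul k)).congr_deriv ?_
  have hs := (Real.sqrt_pos.2 hW).ne'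
  have hs2 := Real.sq_sqrt hW.le
  field_simp
  rw [hs2]
  ring

/-- The polynomial factor of the antiderivative of the density. -/
def densPoly (c : ℝ) : ℝ :=
      (793 / 1024 : ℝ) * c ^ 1 +
      (-2279 / 1536 : ℝ) * c ^ 3 +
      (3481 / 1920 : ℝ) * c ^ 5 +
      (-417 / 320 : ℝ) * c ^ 7 +
      (61 / 120 : ℝ) * c ^ 9 +
      (-1 / 12 : ℝ) * c ^ 11

/-- The polynomial factor of the antiderivative of the value. -/
def valPoly (c : ℝ) : ℝ :=
      (-464541 / 262144 : ℝ) * c ^ 1 +
      (11592035 / 393216 : ℝ) * c ^ 3 +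
      (-372324239973 / 5126717440 : ℝ) * c ^ 5 +
      (-13562 / 97 : ℝ) * c ^ 6 +
      (10888833743569 / 17943511040 : ℝ) * c ^ 7 +
      (1696897 / 3104 : ℝ) * c ^ 8 +
      (-5654858427857 / 1345763328 : ℝ) * c ^ 9 +
      (7277153 / 6208 : ℝ) * c ^ 10 +
      (44847146106709 / 3364408320 : ℝ) * c ^ 11 +
      (-4145399 / 388 : ℝ) * c ^ 12 +
      (-6169746936361 / 280367360 : ℝ) * c ^ 13 +
      (164449595 / 6208 : ℝ) * c ^ 14 +
      (1596762812777 / 84110208 : ℝ) * c ^ 15 +
      (-105127091 / 3104 : ℝ) * c ^ 16 +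
      (-866162479431 / 140183680 : ℝ) * c ^ 17 +
      (151204951 / 6208 : ℝ) * c ^ 18 +
      (-13544186101 / 5391680 : ℝ) * c ^ 19 +
      (-14572387 / 1552 : ℝ) * c ^ 20 +
      (256483237 / 97440 : ℝ) * c ^ 21 +
      (97037 / 64 : ℝ) * c ^ 22 +
      (-264344 / 435 : ℝ) * c ^ 23

lemma dens_eq_div {t : ℝ} (h : 0 < 1 - t ^ 2) :
    dens t = (1 - t ^ 2) ^ 6 / Real.sqrt (1 - t ^ 2) := by
  rw [dens, eq_div_iff (Real.sqrt_pos.2 h).ne', mul_assoc, Real.mul_self_sqrt h.le]
  ring

/-- The total of the density. -/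
theorem integral_dens : ∫ c in (-1 : ℝ)..1, dens c = 231 * Real.pi / 1024 := by
  have hd : ∀ t ∈ Ioo (-1 : ℝ) 1,
      HasDerivAt (fun c => densPoly c * Real.sqrt (1 - c ^ 2) + (231 / 1024 : ℝ) * Real.arcsin c)
        (dens t) t := by
    intro t ht
    have hP : HasDerivAt densPoly
        ((793 / 1024 : ℝ) * (1 * t ^ 0) +
        (-2279 / 1536 : ℝ) * (3 * t ^ 2) +
        (3481 / 1920 : ℝ) * (5 * t ^ 4) +
        (-417 / 320 : ℝ) * (7 * t ^ 6) +
        (61 / 120 : ℝ) * (9 * t ^ 8) +
        (-1 / 12 : ℝ) * (11 * t ^ 10)) t := by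
      unfold densPoly
      refine ((((((((hasDerivAt_pow 1 t).const_mul _).add
        ((hasDerivAt_pow 3 t).const_mul _)).add
        ((hasDerivAt_pow 5 t).const_mul _)).add
        ((hasDerivAt_pow 7 t).const_mul _)).add
        ((hasDerivAt_pow 9 t).const_mul _)).add
        ((hasDerivAt_pow 11 t).const_mul _))).congr_deriv ?_
      push_cast
      ring
    refine (hasDerivAt_prim hP ht.1 ht.2).congr_deriv ?_
    rw [dens_eq_div (by nlinarith [ht.1, ht.2])]
    unfold densPoly
    field_simp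
    ring
  rw [intervalIntegral.integral_eq_sub_of_hasDerivAt_of_le (by norm_num)
    (by unfold densPoly; fun_prop) hd (continuous_dens.intervalIntegrable _ _)]
  norm_num [Real.arcsin_one, Real.arcsin_neg_one]
  ring

/-- The mean over the cosine in dimension fourteen. -/
theorem cmean_fourteen {g : ℝ → ℝ} {B : ℝ} (hg : Measurable g) (hgc : ContinuousOn g (Icc 0 1))
    (hb : ∀ c ∈ Icc (0 : ℝ) 1, 0 ≤ g c ∧ g c ≤ B) :
    cmean 14 g * (231 * Real.pi / 1024) = ∫ c in (0 : ℝ)..1, g c * dens c := by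
  obtain ⟨R, hR⟩ : ∃ R, R = radK 13 := ⟨_, rfl⟩
  obtain ⟨I, hI⟩ : ∃ I, I = ∫ c in (0 : ℝ)..1, g c * dens c := ⟨_, rfl⟩
  have hpi : (0 : ℝ) < 231 * Real.pi / 1024 := by positivity
  have hsub : ∀ c ∈ Icc (0 : ℝ) 1, c ∈ Icc (-1 : ℝ) 1 := fun c hc => ⟨by linarith [hc.1], hc.2⟩
  have hmass : ENNReal.ofReal (mass 14) = R * ENNReal.ofReal (231 * Real.pi / 1024) := by
    rw [← integral_phi, ofReal_integral_eq_lintegral_ofReal integrable_phi
      (Eventually.of_forall fun w => (Real.exp_pos _).le), hR, ← integral_dens,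
      ← lintegral_Ioo (by norm_num) (continuous_dens.intervalIntegrable _ _)
        fun c hc => dens_nonneg (Ioo_subset_Icc_self hc)]
    have h := lintegral_coord (k := 13) (by norm_num) (g := fun _ => 1) measurable_const
    rw [lintegral_subst_fourteen fun _ => 1] at h
    simpa using h
  have hside : ENNReal.ofReal (mass 14 * cmean 14 g) = R * ENNReal.ofReal I := by
    rw [← lintegral_side hg hb, lintegral_coord (k := 13) (by norm_num)
      (hg.ennreal_ofReal.indicator measurableSet_Ioi), lintegral_subst_fourteen, hR, hI]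
    congr 1
    have hint : IntervalIntegrable (fun c => g c * dens c) volume 0 1 :=
      (hgc.mul continuous_dens.continuousOn).intervalIntegrable_of_Icc zero_le_one
    rw [← lintegral_Ioo zero_le_one hint fun c hc =>
      mul_nonneg (hb c ⟨hc.1.le, hc.2.le⟩).1 (dens_nonneg (hsub c (Ioo_subset_Icc_self hc)))]
    rw [← lintegral_indicator measurableSet_Ioo, ← lintegral_indicator measurableSet_Ioo]
    refine lintegral_congr fun c => ?_
    by_cases h : c ∈ Ioo (0 : ℝ) 1
    · rw [indicator_of_mem h,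
        indicator_of_mem (show c ∈ Ioo (-1 : ℝ) 1 from ⟨by linarith [h.1], h.2⟩),
        indicator_of_mem (show c ∈ Ioi (0 : ℝ) from h.1), mul_comm (g c),
        ENNReal.ofReal_mul (dens_nonneg (hsub c (Ioo_subset_Icc_self h)))]
    · rw [indicator_of_notMem h]
      by_cases h' : c ∈ Ioo (-1 : ℝ) 1
      · rw [indicator_of_mem h', indicator_of_notMem (show c ∉ Ioi (0 : ℝ) from
          fun hc => h ⟨hc, h'.2⟩), mul_zero]
      · rw [indicator_of_notMem h']
  have hfin : R ≠ ⊤ := fun h => by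
    rw [h, ENNReal.top_mul (by simpa using hpi)] at hmass
    exact ENNReal.ofReal_ne_top hmass
  obtain ⟨q, hq0, hq⟩ : ∃ q : ℝ, 0 ≤ q ∧ R = ENNReal.ofReal q :=
    ⟨R.toReal, ENNReal.toReal_nonneg, (ENNReal.ofReal_toReal hfin).symm⟩
  have hI0 : 0 ≤ I := hI ▸ intervalIntegral.integral_nonneg zero_le_one fun c hc =>
    mul_nonneg (hb c hc).1 (dens_nonneg (hsub c hc))
  rw [hq, ← ENNReal.ofReal_mul hq0] at hmass hside
  have hm : 0 < mass 14 := Gen.Moment.mass_pos
  have e1 : mass 14 = q * (231 * Real.pi / 1024) :=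
    (ENNReal.ofReal_eq_ofReal_iff hm.le (mul_nonneg hq0 hpi.le)).1 hmass
  have hc0 : 0 ≤ cmean 14 g := by
    refine div_nonneg (integral_nonneg fun v => mul_nonneg (Real.exp_pos _).le ?_) hm.le
    refine Set.indicator_nonneg (fun v hv => ?_) v
    refine (hb _ ⟨div_nonneg (le_of_lt hv) (Real.sqrt_nonneg _), ?_⟩).1
    refine div_le_one_of_le₀ (Real.le_sqrt_of_sq_le ?_) (Real.sqrt_nonneg _)
    rw [sq]
    exact Finset.single_le_sum (f := fun i => v i * v i) (fun i _ => mul_self_nonneg _)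
      (Finset.mem_univ (0 : Fin 14))
  have e2 : mass 14 * cmean 14 g = q * I :=
    (ENNReal.ofReal_eq_ofReal_iff (mul_nonneg hm.le hc0) (mul_nonneg hq0 hI0)).1 hside
  rw [← hI]
  have hq' : q ≠ 0 := fun h => by rw [h, zero_mul] at e1; exact hm.ne' e1
  refine mul_left_cancel₀ hq' ?_
  rw [← e2, e1]
  ring

theorem value_fourteen : Gen.cmean 14 (fun c => -aCoef c) = beta / (14 : ℕ) - 1 := by
  have hm : Measurable fun c => -aCoef c := by unfold aCoef; fun_prop
  have hc : ContinuousOn (fun c => -aCoef c) (Icc 0 1) :=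
    Continuous.continuousOn (by unfold aCoef; fun_prop)
  obtain ⟨B, hB⟩ := isCompact_Icc.bddAbove_image hc
  have h := cmean_fourteen hm hc (B := B) fun c hc' =>
    ⟨neg_nonneg.2 (aCoef_nonpos hc'), hB ⟨c, hc', rfl⟩⟩
  have hd : ∀ t ∈ Ioo (0 : ℝ) 1,
      HasDerivAt (fun c => valPoly c * Real.sqrt (1 - c ^ 2) + (464541 / 262144 : ℝ) * Real.arcsin c)
        (-aCoef t * dens t) t := by
    intro t ht
    have hP : HasDerivAt valPoly
        ((-464541 / 262144 : ℝ) * (1 * t ^ 0) +
        (11592035 / 393216 : ℝ) * (3 * t ^ 2) +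
        (-372324239973 / 5126717440 : ℝ) * (5 * t ^ 4) +
        (-13562 / 97 : ℝ) * (6 * t ^ 5) +
        (10888833743569 / 17943511040 : ℝ) * (7 * t ^ 6) +
        (1696897 / 3104 : ℝ) * (8 * t ^ 7) +
        (-5654858427857 / 1345763328 : ℝ) * (9 * t ^ 8) +
        (7277153 / 6208 : ℝ) * (10 * t ^ 9) +
        (44847146106709 / 3364408320 : ℝ) * (11 * t ^ 10) +
        (-4145399 / 388 : ℝ) * (12 * t ^ 11) +
        (-6169746936361 / 280367360 : ℝ) * (13 * t ^ 12) +
        (164449595 / 6208 : ℝ) * (14 * t ^ 13) +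
        (1596762812777 / 84110208 : ℝ) * (15 * t ^ 14) +
        (-105127091 / 3104 : ℝ) * (16 * t ^ 15) +
        (-866162479431 / 140183680 : ℝ) * (17 * t ^ 16) +
        (151204951 / 6208 : ℝ) * (18 * t ^ 17) +
        (-13544186101 / 5391680 : ℝ) * (19 * t ^ 18) +
        (-14572387 / 1552 : ℝ) * (20 * t ^ 19) +
        (256483237 / 97440 : ℝ) * (21 * t ^ 20) +
        (97037 / 64 : ℝ) * (22 * t ^ 21) +
        (-264344 / 435 : ℝ) * (23 * t ^ 22)) t := by
      unfold valPoly
      refine (((((((((((((((((((((((hasDerivAt_pow 1 t).const_mul _).add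
        ((hasDerivAt_pow 3 t).const_mul _)).add
        ((hasDerivAt_pow 5 t).const_mul _)).add
        ((hasDerivAt_pow 6 t).const_mul _)).add
        ((hasDerivAt_pow 7 t).const_mul _)).add
        ((hasDerivAt_pow 8 t).const_mul _)).add
        ((hasDerivAt_pow 9 t).const_mul _)).add
        ((hasDerivAt_pow 10 t).const_mul _)).add
        ((hasDerivAt_pow 11 t).const_mul _)).add
        ((hasDerivAt_pow 12 t).const_mul _)).add
        ((hasDerivAt_pow 13 t).const_mul _)).add
        ((hasDerivAt_pow 14 t).const_mul _)).add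
        ((hasDerivAt_pow 15 t).const_mul _)).add
        ((hasDerivAt_pow 16 t).const_mul _)).add
        ((hasDerivAt_pow 17 t).const_mul _)).add
        ((hasDerivAt_pow 18 t).const_mul _)).add
        ((hasDerivAt_pow 19 t).const_mul _)).add
        ((hasDerivAt_pow 20 t).const_mul _)).add
        ((hasDerivAt_pow 21 t).const_mul _)).add
        ((hasDerivAt_pow 22 t).const_mul _)).add
        ((hasDerivAt_pow 23 t).const_mul _))).congr_deriv ?_
      push_cast
      ring
    refine (hasDerivAt_prim hP (by linarith [ht.1]) ht.2).congr_deriv ?_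
    rw [dens_eq_div (by nlinarith [ht.1, ht.2])]
    unfold valPoly aCoef den
    field_simp
    ring
  rw [intervalIntegral.integral_eq_sub_of_hasDerivAt_of_le (by norm_num)
    (by unfold valPoly; fun_prop) hd
    ((hc.mul continuous_dens.continuousOn).intervalIntegrable_of_Icc zero_le_one)] at h
  have hpi : (231 * Real.pi / 1024 : ℝ) ≠ 0 := by positivity
  refine mul_right_cancel₀ hpi (h.trans ?_)
  norm_num [Real.arcsin_one, Real.arcsin_zero, valPoly, beta]
  ring

/-- The certificate of the sharp constant in dimension fourteen. -/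
theorem cert_fourteen : Cert 14 aCoef beta :=
  Quart10.cert_of_profile (by norm_num) smooth_prof facts (by norm_num [beta]) (by unfold aCoef; fun_prop)
    (fun _ hc => aCoef_nonpos hc)
    (by
      obtain ⟨B, hB⟩ := isCompact_Icc.bddAbove_image (f := fun c => -aCoef c)
        (Continuous.continuousOn (by unfold aCoef; fun_prop) : ContinuousOn _ (Icc (0 : ℝ) 1))
      exact ⟨B, fun c hc => neg_le.2 (hB ⟨c, hc, rfl⟩)⟩)
    value_fourteen

/-- The sharp inequality in dimension fourteen. -/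
theorem sharp_fourteen : Gen.SharpDim 14 := sharpDim_of_cert 14 (by norm_num) cert_fourteen

/-- The strict certificate in dimension fourteen. -/
theorem strict_fourteen : Strict.StrictAt 14 aCoef beta slack :=
  Quart10.strictAt_of_profile (by norm_num) smooth_prof facts slack_pos margins cert_fourteen

/-- Only flat balls attain the sharp constant in dimension fourteen. -/
theorem rigid_fourteen : CH.Rigid.RigidDim 14 :=
  Strict.rigidDim_of_strict 14 (by norm_num) strict_fourteen

end Vale.Agent.P219.CH.Flat.Fourteen
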