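import Vale.Agent.P219.Flat.Profile10
import Vale.Agent.P219.Flat.Tree

/-!
# P219, dimension fourteen: the profile and its rows as integer expressions

`u (r, c) = (P0 r + c ^ 2 P2 r + c ^ 4 P4 r) / r ^ 9`; every number below is the rational one times
`den`. The tangency equation at the contact makes the pair row `(r - 2 m) ^ 2 Q + δ ^ 2 G` at the
cosines `m - δ` and `m + δ`; `rowQ` and `rowG` are these two factors, less the slack; the other
rows of the kernel are less `margin r ^ 10` too. The rows with a parameter
bound the product of the sines by a weighted mean of their squares, and the geometric mean of the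
weights by a chord of the square root.
-/

noncomputable section

namespace Vale.Agent.P219.CH.Flat.Fourteen

open Vale.Agent.P219.Poly (E)

/-- The common denominator. -/
def den : ℤ := 20886246850560

/-- The slack of the strict rows, times `2 den`. -/
def margin : ℤ := 4177249370

/-- The slack. -/
def slack : ℝ := margin / (2 * den)

/-- The denominator of the roots of the weight ratio. -/
def unitU : ℕ := 128

/-- Horner form with integer coefficients, lowest first. -/
def horner : List ℤ → E → E
  | [], _ => .k 0
  | [z], _ => .k z
  | z :: l, r => .add (.k z) (.mul r (horner l r))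

/-- Horner form with expression coefficients, lowest first. -/
def hornerE : List E → E → E
  | [], _ => .k 0
  | [p], _ => p
  | p :: l, r => .add p (.mul r (hornerE l r))

/-- The coefficients of `den * P0`. -/
def z0 : List ℤ := [40025174221760, 0, 39892238629432, -91256211271680, 241010317857192, -90947500523880, -48709474029372, 36577383991785, 4635366856848]

/-- Those of its derivative. -/
def dz0 : List ℤ := [0, 79784477258864, -273768633815040, 964041271428768, -454737502619400, -292256844176232, 256041687942495, 37082934854784]

/-- The coefficients of `den * P2`. -/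
def z2 : List ℤ := [-68490731368864, 547537267630080, -1261659848816640, 611004307280640, -68696171281920, 148406574301440, -103044256922880]

/-- Those of its derivative. -/
def dz2 : List ℤ := [547537267630080, -2523319697633280, 1833012921841920, -274784685127680, 742032871507200, -618265541537280]

/-- The coefficients of `den * P4`. -/
def z4 : List ℤ := [33858564230400, -607414483603200, 1827301838718720, -1673673702704640, 492866473532160]

/-- Those of its derivative. -/
def dz4 : List ℤ := [-607414483603200, 3654603677437440, -5021021108113920, 1971465894128640]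

/-- The coefficients of `den` times the marginal coefficient over the cosine. -/
def za : List ℤ := [0, -1921208362644480, 0, -1480093374430720, 17521192564162560, -77885745871417344, -6659106099609600, 407730203158247424, -444842687121530880, -326272276366553088, 728359233119831040, -304615395170451456]

/-- The profile. -/
def prof : Quart.Prof where
  P0 r := ((40025174221760 : ℝ) * r ^ 0 + (0 : ℝ) * r ^ 1 + (39892238629432 : ℝ) * r ^ 2 + (-91256211271680 : ℝ) * r ^ 3 + (241010317857192 : ℝ) * r ^ 4 + (-90947500523880 : ℝ) * r ^ 5 + (-48709474029372 : ℝ) * r ^ 6 + (36577383991785 : ℝ) * r ^ 7 + (4635366856848 : ℝ) * r ^ 8) / den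
  D0 r := ((0 : ℝ) * r ^ 0 + (79784477258864 : ℝ) * r ^ 1 + (-273768633815040 : ℝ) * r ^ 2 + (964041271428768 : ℝ) * r ^ 3 + (-454737502619400 : ℝ) * r ^ 4 + (-292256844176232 : ℝ) * r ^ 5 + (256041687942495 : ℝ) * r ^ 6 + (37082934854784 : ℝ) * r ^ 7) / den
  P2 r := ((-68490731368864 : ℝ) * r ^ 0 + (547537267630080 : ℝ) * r ^ 1 + (-1261659848816640 : ℝ) * r ^ 2 + (611004307280640 : ℝ) * r ^ 3 + (-68696171281920 : ℝ) * r ^ 4 + (148406574301440 : ℝ) * r ^ 5 + (-103044256922880 : ℝ) * r ^ 6) / den
  D2 r := ((547537267630080 : ℝ) * r ^ 0 + (-2523319697633280 : ℝ) * r ^ 1 + (1833012921841920 : ℝ) * r ^ 2 + (-274784685127680 : ℝ) * r ^ 3 + (742032871507200 : ℝ) * r ^ 4 + (-618265541537280 : ℝ) * r ^ 5) / den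
  P4 r := ((33858564230400 : ℝ) * r ^ 0 + (-607414483603200 : ℝ) * r ^ 1 + (1827301838718720 : ℝ) * r ^ 2 + (-1673673702704640 : ℝ) * r ^ 3 + (492866473532160 : ℝ) * r ^ 4) / den
  D4 r := ((-607414483603200 : ℝ) * r ^ 0 + (3654603677437440 : ℝ) * r ^ 1 + (-5021021108113920 : ℝ) * r ^ 2 + (1971465894128640 : ℝ) * r ^ 3) / den

/-- The volume coefficient. -/
def beta : ℝ := 17661 / 256

/-- The marginal coefficient. -/
def aCoef (c : ℝ) : ℝ := c * (((0 : ℝ) * c ^ 0 + (-1921208362644480 : ℝ) * c ^ 1 + (0 : ℝ) * c ^ 2 + (-1480093374430720 : ℝ) * c ^ 3 + (17521192564162560 : ℝ) * c ^ 4 + (-77885745871417344 : ℝ) * c ^ 5 + (-6659106099609600 : ℝ) * c ^ 6 + (407730203158247424 : ℝ) * c ^ 7 + (-444842687121530880 : ℝ) * c ^ 8 + (-326272276366553088 : ℝ) * c ^ 9 + (728359233119831040 : ℝ) * c ^ 10 + (-304615395170451456 : ℝ) * c ^ 11) / den)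

/-- `den` times the numerator of the profile. -/
def rowN (R C : E) : E :=
  .add (horner z0 R) (.add (.mul (.pow C 2) (horner z2 R)) (.mul (.pow C 4) (horner z4 R)))

/-- `den` times its derivative. -/
def rowDN (R C : E) : E :=
  .add (horner dz0 R) (.add (.mul (.pow C 2) (horner dz2 R)) (.mul (.pow C 4) (horner dz4 R)))

/-- `den` times its derivative in the square of the cosine. -/
def rowDC (R C : E) : E := .add (horner z2 R) (.mul (.k 2) (.mul (.pow C 2) (horner z4 R)))

/-- `2 den` times the kernel without its angular part. -/
def rowBase (R C D : E) : E :=
  .add (.add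
    (.mul (.k 2) (.mul (.add (.k 1) (.neg (.pow D 2)))
      (.add (.mul R (rowDN R C)) (.mul (.k (-9)) (rowN R C)))))
    (.mul (.k 2) (.mul (.add (.k 12) (.pow D 2)) (rowN R C))))
    (.mul (.k (-26)) (.mul D (.mul R (rowN R C))))

/-- `2 den` times the symmetrised kernel without its angular part, less the slack. -/
def rowS0 (R C D : E) : E :=
  .add (.mul (.k (83544987402240 - margin)) (.pow R 10)) (.add (rowBase R C D) (rowBase R D C))

/-- `den` times the angular factor. -/
def rowXc (R C D AC AD : E) : E := .mul (.mul AC AD) (.add (rowDC R C) (rowDC R D))

/-- `2 den` times the symmetrised kernel, the sines bounded by their mean square. -/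
def rowSym (R C D AC AD : E) : E :=
  .add (rowS0 R C D) (.mul (.mul (.k 2) (rowXc R C D AC AD))
    (.add (.k 2) (.neg (.add (.pow C 2) (.pow D 2)))))

/-- `2 p q den` times the symmetrised kernel, the squares of the sines weighted by `p` and `q`. -/
def rowLam (p q : ℕ) (R C D AC AD : E) : E :=
  .add (.mul (.k (p * q)) (rowS0 R C D)) (.mul (.mul (.k 2) (rowXc R C D AC AD))
    (.add (.mul (.k (p * p)) (.add (.k 1) (.neg (.pow C 2))))
      (.mul (.k (q * q)) (.add (.k 1) (.neg (.pow D 2))))))

/-- The gain at the cosines `d z` and `d`. -/
def rowGain (p1 p2 p q : ℕ) : E :=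
  .add (.mul (.k (unitU * (p1 + p2))) (rowLam p q (.x 0) (.mul (.x 1) (.x 2)) (.x 1)
      (.mul (.x 1) (.x 2)) (.x 1)))
    (.mul (.mul (.k (4 * (p * q))) (.mul (.mul (.x 1) (.x 2)) (.x 1)))
      (.add (.mul (.k (unitU * unitU)) (rowN (.x 0) (.mul (.x 1) (.x 2))))
        (.mul (.k (p1 * p2)) (rowN (.x 0) (.x 1)))))

/-- The ratio of the weights is at least `(p1 / 128) ^ 2`. -/
def rowLow (p1 : ℕ) : E :=
  .add (.mul (.k (unitU * unitU)) (rowN (.x 0) (.mul (.x 1) (.x 2))))
    (.neg (.mul (.k (p1 * p1)) (rowN (.x 0) (.x 1))))

/-- The ratio of the weights is at most `(p2 / 128) ^ 2`. -/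
def rowUp (p2 : ℕ) : E :=
  .add (.mul (.k (p2 * p2)) (rowN (.x 0) (.x 1)))
    (.neg (.mul (.k (unitU * unitU)) (rowN (.x 0) (.mul (.x 1) (.x 2)))))

/-- An inward and an outward cosine. -/
def rowMix (p q : ℕ) : E :=
  .add (rowLam p q (.x 0) (.x 1) (.neg (.x 2)) (.x 1) (.x 2))
    (.mul (.k (-4 * (p * q))) (.mul (.mul (.x 1) (.x 2)) (horner z0 (.x 0))))

/-- Two outward cosines. -/
def rowOut : E := rowSym (.x 0) (.neg (.x 1)) (.neg (.x 2)) (.x 1) (.x 2)

/-- The weight at the rim. -/
def rowRim : E := rowN (.x 0) (.k 1)

/-- The slope at the centre. -/
def rowSl2 : E := .neg (horner z2 (.x 0))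

/-- The slope at the rim. -/
def rowSl4 : E := .neg (rowDC (.x 0) (.k 1))

/-- The growth of `r ^ 3 P0`. -/
def rowMono : E := .add (.mul (.x 0) (horner dz0 (.x 0))) (.mul (.k 3) (horner z0 (.x 0)))

/-- The sign of the marginal coefficient. -/
def rowA : E := .neg (horner za (.x 1))

/-- The contact factor of the pair row. -/
def rowQ (R M : E) : E :=
  hornerE [
    horner [0, 480302090661120, 0, 797844772588640, -2190149070520320, 6748288900001376, -2910320016764160, -1753541065057392, 1463095359671400, 203956141701312, 0, 83540810152870] R,
    horner [1921208362644480, 0, 1110070030823040, -8760596282081280, 24918759191275040, -6895957080929280, -19546700788803552, 10581651465927360, 3348717216332592, -1902023967572820, 93140873052864] R,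
    horner [0, 1480093374430720, -13140894423121920, 38631957034370560, 1054415660712960, -67861453432561152, 40591537386603840, 7265745409448448, -7169167262389860, 75466477457280] R,
    horner [1480093374430720, -17521192564162560, 58414309403563008, 3329553049804800, -127652698436565120, 88267319704112640, 19240313679123264, -28785715042943040, 5287603777607424] R,
    horner [-17521192564162560, 77885745871417344, 4994329574707200, -203661950193741312, 135976267307462400, 68485259173603584, -84685312230595440, 20024195145217536] R,
    horner [77885745871417344, 6659106099609600, -305797652368685568, 222421343560765440, 101960086364547840, -136567356209968320, 33317308846768128] R,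
    horner [6659106099609600, -407730203158247424, 333632015341148160, 163136138183276544, -227612260349947200, 57115386594459648] R,
    horner [-407730203158247424, 444842687121530880, 244704207274914816, -364179616559915520, 95192310990766080] R,
    horner [444842687121530880, 326272276366553088, -546269424839873280, 152307697585225728] R,
    horner [326272276366553088, -728359233119831040, 228461546377838592] R,
    horner [-728359233119831040, 304615395170451456] R,
    horner [304615395170451456] R] M

/-- The factor of the squared half difference of the cosines. -/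
def rowG (R M S : E) : E :=
  hornerE [
    hornerE [
      horner [0, 5763625087933440, 0, 1327044043394944, 4380298141040640, -13863366549657856, 7220895000883200, 4410324202934208, 1742807772756960, -3664590778310592, 438928607901420, 37066225857304] R,
      horner [-7684833450577920, 0, 0, 0, -3561518031180928, 28471937916764160, -65606312138465280, 31772223978593280, -3572200906659840, 7717141863674880, -5358301359989760] R,
      horner [0, 0, 0, 7917075134097920, -97734473695272960, 300022450970511360, -275225254397184000, 86098983774935040, -5936262972057600, 3297416221532160] R,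
      horner [11840746995445760, 0, 0, 0, -3521290679961600, 63171106294732800, -190039391226746880, 174062065081282560, -51258113247344640] R,
      horner [-350423851283251200, 0, 0, -1896079596902400, 31585553147366400, -87710488258498560, 73641642919004160, -19714658941286400] R,
      horner [2803886851371024384] R,
      horner [372909941578137600] R,
      horner [-32618416252659793920] R,
      horner [48043010209125335040] R,
      horner [45678118691317432320] R,
      horner [-128191225029090263040] R,
      horner [65796925356817514496] R] M,
    hornerE [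
      horner [0, 0, 0, -3422989362627072, 24091639775723520, -43157186597790720, 8606765440465920, 3716120201364480, 4155384080440320, -2473062166149120] R,
      horner [-17761120493168640, 0, 0, 0, 5281936019942400, -94756659442099200, 285059086840120320, -261093097621923840, 76887169871016960] R,
      horner [350423851283251200, 0, 0, -812605541529600, 12148289672064000, -29236829419499520, 20084084432455680, -3942931788257280] R,
      horner [-1557714917428346880] R,
      horner [0] R,
      horner [-22832891376861855744] R,
      horner [74733571436417187840] R,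
      horner [117458019491959111680] R,
      horner [-480717093859088486400] R,
      horner [335076934687496601600] R] M,
    hornerE [
      horner [70084770256650240, 0, 0, 1896079596902400, -31585553147366400, 87710488258498560, -73641642919004160, 19714658941286400] R,
      horner [-1557714917428346880] R,
      horner [-372909941578137600] R,
      horner [45665782753723711488] R,
      horner [-74733571436417187840] R,
      horner [-54813742429580918784] R,
      horner [0] R,
      horner [160836928649998368768] R] M,
    hornerE [
      horner [-26636424398438400] R,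
      horner [11416445688430927872] R,
      horner [-48043010209125335040] R,
      horner [-97881682909965926400] R,
      horner [480717093859088486400] R,
      horner [-361883089462496329728] R] M,
    hornerE [
      horner [-1779370748486123520] R,
      horner [-11745801949195911168] R,
      horner [128191225029090263040] R,
      horner [-187643083424998096896] R] M,
    hornerE [
      horner [2913436932479324160] R,
      horner [-13403077387499864064] R] M] S

/-- The contact factor at the variables. -/
def rowQ0 : E := rowQ (.x 0) (.x 1)

/-- The squared half difference above the half, at its share `x 2` of the largest. -/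
def rowS : E := .mul (.x 2) (.pow (.add (.k 1) (.neg (.x 1))) 2)

/-- The pair row at the largest difference, below the half. -/
def rowLo : E :=
  .add (.mul (.pow (.add (.x 0) (.mul (.k (-2)) (.x 1))) 2) (rowQ (.x 0) (.x 1)))
    (.mul (.pow (.x 1) 2) (rowG (.x 0) (.x 1) (.mul (.x 2) (.pow (.x 1) 2))))

/-- The pair row at the largest difference, above the half. -/
def rowHi : E :=
  .add (.mul (.pow (.add (.x 0) (.mul (.k (-2)) (.x 1))) 2) (rowQ (.x 0) (.x 1)))
    (.mul (.pow (.add (.k 1) (.neg (.x 1))) 2) (rowG (.x 0) (.x 1) rowS))

/-- The pair row away from the corner `r = 2`, `m = 1`: `|r - 2 m| ≥ 4 (1 - m)`. -/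
def rowFar : E := .add (.mul (.k 16) (rowQ (.x 0) (.x 1))) (rowG (.x 0) (.x 1) rowS)

/-- The distance in the corner. -/
def coneR : E :=
  .add (.mul (.k 2) (.x 1))
    (.mul (.add (.k 1) (.neg (.x 1))) (.add (.mul (.k 8) (.x 0)) (.k (-4))))

/-- The pair row in the corner, over `(1 - m) ^ 2`, at the largest difference. -/
def rowCone : E :=
  .add (.mul (.pow (.add (.mul (.k 8) (.x 0)) (.k (-4))) 2) (rowQ coneR (.x 1)))
    (rowG coneR (.x 1) rowS)

/-- The same at the difference itself. -/
def rowCone1 : E :=
  .add (.mul (.pow (.add (.mul (.k 8) (.x 0)) (.k (-4))) 2) (rowQ coneR (.x 1)))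
    (.mul (.x 2) (rowG coneR (.x 1) rowS))

end Vale.Agent.P219.CH.Flat.Fourteen
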