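import Vale.Agent.P219.Flat.Fourteen.Rows
import Vale.Agent.P219.Flat.Strict.Profile10

/-!
# P219, dimension fourteen: the pointwise facts of the profile
-/

noncomputable section

namespace Vale.Agent.P219.CH.Flat.Fourteen

open Set Vale.Agent.P219.Poly Vale.Agent.P219.Poly.E
open Quart10 (symT symQ symY)

lemma den_pos : (0 : ℝ) < den := by norm_num [den]

lemma slack_pos : 0 < slack := by norm_num [slack, margin, den]

lemma smooth_prof : prof.Smooth := by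
  refine ⟨fun r => ?_, fun r => ?_, fun r => ?_, ?_, ?_, ?_⟩
  · simp only [prof]
    refine (((((((((((hasDerivAt_pow 0 r).const_mul _).add
      ((hasDerivAt_pow 1 r).const_mul _)).add
      ((hasDerivAt_pow 2 r).const_mul _)).add
      ((hasDerivAt_pow 3 r).const_mul _)).add
      ((hasDerivAt_pow 4 r).const_mul _)).add
      ((hasDerivAt_pow 5 r).const_mul _)).add
      ((hasDerivAt_pow 6 r).const_mul _)).add
      ((hasDerivAt_pow 7 r).const_mul _)).add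
      ((hasDerivAt_pow 8 r).const_mul _)).div_const _).congr_deriv ?_
    push_cast
    ring
  · simp only [prof]
    refine (((((((((hasDerivAt_pow 0 r).const_mul _).add
      ((hasDerivAt_pow 1 r).const_mul _)).add
      ((hasDerivAt_pow 2 r).const_mul _)).add
      ((hasDerivAt_pow 3 r).const_mul _)).add
      ((hasDerivAt_pow 4 r).const_mul _)).add
      ((hasDerivAt_pow 5 r).const_mul _)).add
      ((hasDerivAt_pow 6 r).const_mul _)).div_const _).congr_deriv ?_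
    push_cast
    ring
  · simp only [prof]
    refine (((((((hasDerivAt_pow 0 r).const_mul _).add
      ((hasDerivAt_pow 1 r).const_mul _)).add
      ((hasDerivAt_pow 2 r).const_mul _)).add
      ((hasDerivAt_pow 3 r).const_mul _)).add
      ((hasDerivAt_pow 4 r).const_mul _)).div_const _).congr_deriv ?_
    push_cast
    ring
  all_goals
    simp only [prof]
    fun_prop

/-! ## The rows are the facts -/

lemma sem_rowSym (v : Fin 3 → ℝ) (R C D AC AD : E) (hac : sem v AC = |sem v C|)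
    (had : sem v AD = |sem v D|) :
    sem v (rowSym R C D AC AD) = 2 * den *
      (symQ prof 14 (sem v R) (sem v C) (sem v D) - slack * sem v R ^ 10) := by
  simp only [rowSym, rowS0, rowXc, rowBase, rowN, rowDN, rowDC, horner, z0, z2, z4, dz0, dz2, dz4,
    sem, hac, had, symQ, symT, Quart10.kerT, Quart.Prof.N, Quart.Prof.dN, Quart.Prof.dC, prof, den, slack, margin]
  push_cast
  ring

lemma sem_rowLam (p q : ℕ) (v : Fin 3 → ℝ) (R C D AC AD : E) (hac : sem v AC = |sem v C|)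
    (had : sem v AD = |sem v D|) :
    sem v (rowLam p q R C D AC AD) = 2 * den *
      (p * q * (symT prof 14 (sem v R) (sem v C) (sem v D) 0 - slack * sem v R ^ 10) +
        |sem v C| * |sem v D| * (prof.dC (sem v R) (sem v C) + prof.dC (sem v R) (sem v D)) *
          (p ^ 2 * (1 - sem v C ^ 2) + q ^ 2 * (1 - sem v D ^ 2))) := by
  simp only [rowLam, rowS0, rowXc, rowBase, rowN, rowDN, rowDC, horner, z0, z2, z4, dz0, dz2, dz4,
    sem, hac, had, symT, Quart10.kerT, Quart.Prof.N, Quart.Prof.dN, Quart.Prof.dC, prof, den, slack, margin]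
  push_cast
  ring

lemma rim_eq (r : ℝ) : sem ![r, 0, 0] rowRim = den * prof.N r 1 := by
  simp [rowRim, rowN, horner, z0, z2, z4, sem, Quart.Prof.N, prof, den]
  ring

lemma sl2_eq (r : ℝ) : sem ![r, 0, 0] rowSl2 = den * (-prof.P2 r) := by
  simp [rowSl2, horner, z2, sem, prof, den]
  ring

lemma sl4_eq (r : ℝ) : sem ![r, 0, 0] rowSl4 = den * (-(prof.P2 r + 2 * prof.P4 r)) := by
  simp [rowSl4, rowDC, horner, z2, z4, sem, prof, den]
  ring

lemma mono_eq (r : ℝ) : sem ![r, 0, 0] rowMono = den * (r * prof.D0 r + 3 * prof.P0 r) := by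
  simp [rowMono, horner, z0, dz0, sem, prof, den]
  ring

lemma a_eq (c : ℝ) : c * sem ![0, c, 0] rowA = -(den * aCoef c) := by
  simp [rowA, horner, za, sem, aCoef, den]
  ring

lemma sem_rowN (v : Fin 3 → ℝ) (R C : E) :
    sem v (rowN R C) = den * prof.N (sem v R) (sem v C) := by
  simp only [rowN, horner, z0, z2, z4, sem, Quart.Prof.N, prof, den]
  push_cast
  ring

lemma gain_eq (p1 p2 p q : ℕ) (r d z : ℝ) (hd : 0 ≤ d) (hz : 0 ≤ z) :
    sem ![r, d, z] (rowGain p1 p2 p q) = 2 * den *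
      (unitU * (p1 + p2) * (p * q * (symT prof 14 r (d * z) d 0 - slack * r ^ 10) +
          (d * z) * d * (prof.dC r (d * z) + prof.dC r d) *
            (p ^ 2 * (1 - (d * z) ^ 2) + q ^ 2 * (1 - d ^ 2))) +
        2 * (p * q) * (d * z * d) *
          (unitU ^ 2 * prof.N r (d * z) + p1 * p2 * prof.N r d)) := by
  rw [rowGain, sem, sem, sem_rowLam _ _ _ _ _ _ _ _
    (by simp [sem, hd, hz, abs_of_nonneg, mul_nonneg]) (by simp [sem, hd, abs_of_nonneg])]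
  simp [sem, sem_rowN, abs_of_nonneg hd, abs_of_nonneg (mul_nonneg hd hz)]
  ring

lemma low_eq (p1 : ℕ) (r d z : ℝ) : sem ![r, d, z] (rowLow p1) =
    den * (unitU ^ 2 * prof.N r (d * z) - p1 ^ 2 * prof.N r d) := by
  simp [rowLow, sem, sem_rowN]
  ring

lemma up_eq (p2 : ℕ) (r d z : ℝ) : sem ![r, d, z] (rowUp p2) =
    den * (p2 ^ 2 * prof.N r d - unitU ^ 2 * prof.N r (d * z)) := by
  simp [rowUp, sem, sem_rowN]
  ring

lemma mix_eq (p q : ℕ) (r c d : ℝ) (hc : 0 ≤ c) (hd : 0 ≤ d) :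
    sem ![r, c, d] (rowMix p q) = 2 * den *
      (p * q * (symT prof 14 r c (-d) 0 - slack * r ^ 10) +
        c * d * (prof.dC r c + prof.dC r (-d)) * (p ^ 2 * (1 - c ^ 2) + q ^ 2 * (1 - (-d) ^ 2)) -
        2 * (p * q) * (c * d) * prof.N r 0) := by
  rw [rowMix, sem, sem_rowLam _ _ _ _ _ _ _ _ (by simp [sem, hc, abs_of_nonneg])
    (by simp [sem, hd, abs_of_nonneg])]
  simp [horner, z0, sem, Quart.Prof.N, prof, den, abs_of_nonneg hc, abs_of_nonneg hd]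
  ring

lemma out_eq (r c d : ℝ) (hc : 0 ≤ c) (hd : 0 ≤ d) :
    sem ![r, c, d] rowOut = 2 * den * (symQ prof 14 r (-c) (-d) - slack * r ^ 10) := by
  rw [rowOut, sem_rowSym _ _ _ _ _ _ (by simp [sem, hc, abs_of_nonneg])
    (by simp [sem, hd, abs_of_nonneg])]
  simp [sem]

/-- The exact sines lose nothing against a weighted mean of their squares. -/
lemma lam_le_symY {r c d : ℝ} {p q : ℕ} (hC : prof.dC r c + prof.dC r d ≤ 0)
    (hc : c ∈ Icc (-1 : ℝ) 1) (hd : d ∈ Icc (-1 : ℝ) 1) :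
    p * q * symT prof 14 r c d 0 + |c| * |d| * (prof.dC r c + prof.dC r d) *
        (p ^ 2 * (1 - c ^ 2) + q ^ 2 * (1 - d ^ 2)) ≤ p * q * symY prof 14 r c d := by
  obtain ⟨A, hA⟩ : ∃ A, A = Real.sqrt (1 - c ^ 2) := ⟨_, rfl⟩
  obtain ⟨B, hB⟩ : ∃ B, B = Real.sqrt (1 - d ^ 2) := ⟨_, rfl⟩
  have hA2 : A ^ 2 = 1 - c ^ 2 := by rw [hA, Real.sq_sqrt (Relax.Five.one_sub_sq_nonneg hc)]
  have hB2 : B ^ 2 = 1 - d ^ 2 := by rw [hB, Real.sq_sqrt (Relax.Five.one_sub_sq_nonneg hd)]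
  have h1 : 0 ≤ p ^ 2 * (1 - c ^ 2) + q ^ 2 * (1 - d ^ 2) - 2 * p * q * (A * B) := by
    rw [← hA2, ← hB2]
    linarith [sq_nonneg ((p : ℝ) * A - q * B)]
  have h2 := mul_nonpos_of_nonneg_of_nonpos
    (mul_nonneg (mul_nonneg (abs_nonneg c) (abs_nonneg d)) h1) hC
  simp only [symY, symT, Quart10.kerT, ← hA, ← hB]
  linarith

/-- The chord of the square root. -/
lemma chord_le {a b U s t : ℝ} (hb : 0 ≤ b) (hU : 0 ≤ U) (ht : 0 ≤ t)
    (h1 : s ^ 2 * b ≤ U ^ 2 * a) (h2 : U ^ 2 * a ≤ t ^ 2 * b) (ha : 0 ≤ a) :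
    U ^ 2 * a + s * t * b ≤ U * (s + t) * Real.sqrt (a * b) := by
  obtain ⟨x, hx⟩ : ∃ x, x = U * Real.sqrt a := ⟨_, rfl⟩
  obtain ⟨y, hy⟩ : ∃ y, y = Real.sqrt b := ⟨_, rfl⟩
  have hx0 : 0 ≤ x := hx ▸ mul_nonneg hU (Real.sqrt_nonneg a)
  have hy0 : 0 ≤ y := hy ▸ Real.sqrt_nonneg b
  have hx2 : x ^ 2 = U ^ 2 * a := by rw [hx, mul_pow, Real.sq_sqrt ha]
  have hy2 : y ^ 2 = b := by rw [hy, Real.sq_sqrt hb]
  have l1 : s * y ≤ x := le_of_pow_le_pow_left₀ two_ne_zero hx0 (by rw [mul_pow, hy2, hx2]; exact h1)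
  have l2 : x ≤ t * y :=
    le_of_pow_le_pow_left₀ two_ne_zero (mul_nonneg ht hy0) (by rw [mul_pow, hy2, hx2]; exact h2)
  have e : U * (s + t) * Real.sqrt (a * b) = (s + t) * (x * y) := by
    rw [Real.sqrt_mul ha, hx, hy]
    ring
  rw [e, ← hx2, ← hy2]
  linarith [mul_nonneg (sub_nonneg.2 l1) (sub_nonneg.2 l2)]

lemma slopes {r : ℝ} (hr : 0 < r) : prof.P2 r ≤ 0 ∧ prof.P2 r + 2 * prof.P4 r ≤ 0 := by
  have h0 : (0 : ℝ) ∈ Icc (0 : ℝ) 1 := ⟨le_rfl, zero_le_one⟩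
  have h2 := sl2_nonneg (r := r) hr h0 h0
  have h4 := sl4_nonneg (r := r) hr h0 h0
  rw [sl2_eq] at h2
  rw [sl4_eq] at h4
  exact ⟨neg_nonneg.1 (nonneg_of_mul_nonneg_right h2 den_pos),
    neg_nonneg.1 (nonneg_of_mul_nonneg_right h4 den_pos)⟩

lemma dC_sum_nonpos {r c d : ℝ} (hr : 0 < r) (hc : c ∈ Icc (-1 : ℝ) 1) (hd : d ∈ Icc (-1 : ℝ) 1) :
    prof.dC r c + prof.dC r d ≤ 0 := by
  obtain ⟨h1, h2⟩ := slopes hr
  have := mul_nonpos_of_nonneg_of_nonpos (Relax.Five.one_sub_sq_nonneg hc) h1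
  have := mul_nonpos_of_nonneg_of_nonpos (sq_nonneg c) h2
  have := mul_nonpos_of_nonneg_of_nonpos (Relax.Five.one_sub_sq_nonneg hd) h1
  have := mul_nonpos_of_nonneg_of_nonpos (sq_nonneg d) h2
  simp only [Quart.Prof.dC]
  linarith

lemma N_anti {r c d : ℝ} (hr : 0 < r) (h : c ^ 2 ≤ d ^ 2) (hd : d ^ 2 ≤ 1) :
    prof.N r d ≤ prof.N r c := by
  obtain ⟨h1, h2⟩ := slopes hr
  have h3 : 2 * prof.P2 r + 2 * (c ^ 2 + d ^ 2) * prof.P4 r ≤ 0 := by
    have := mul_nonpos_of_nonneg_of_nonpos (show 0 ≤ 2 - (c ^ 2 + d ^ 2) by linarith) h1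
    have := mul_nonpos_of_nonneg_of_nonpos (add_nonneg (sq_nonneg c) (sq_nonneg d)) h2
    linarith
  have := mul_nonpos_of_nonneg_of_nonpos (sub_nonneg.2 h) h3
  simp only [Quart.Prof.N]
  linarith

lemma rim_pos {r : ℝ} (hr : 0 < r) : 0 ≤ prof.N r 1 := by
  have h := rim_nonneg (r := r) (y := 0) (z := 0) hr ⟨le_rfl, zero_le_one⟩ ⟨le_rfl, zero_le_one⟩
  rw [rim_eq] at h
  exact nonneg_of_mul_nonneg_right h den_pos

lemma gain_fact {r d z : ℝ} (hr : 0 < r) (hd : d ∈ Icc (0 : ℝ) 1) (hz : z ∈ Icc (0 : ℝ) 1) :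
    slack * r ^ 10 ≤ symY prof 14 r (d * z) d +
      2 * (d * z * d) * Real.sqrt (prof.N r (d * z) * prof.N r d) := by
  have hdz : 0 ≤ d * z := mul_nonneg hd.1 hz.1
  have hc : d * z ∈ Icc (-1 : ℝ) 1 := ⟨by linarith, mul_le_one₀ hd.2 hz.1 hz.2⟩
  have hd' : d ∈ Icc (-1 : ℝ) 1 := ⟨by linarith [hd.1], hd.2⟩
  have hd1 : d ^ 2 ≤ 1 := pow_le_one₀ hd.1 hd.2
  have hNd : 0 ≤ prof.N r d := (rim_pos hr).trans (N_anti hr (by simpa using hd1) (by norm_num))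
  have hNc := hNd.trans (N_anti hr
    (pow_le_pow_left₀ hdz (mul_le_of_le_one_right hd.1 hz.2) 2) hd1)
  obtain ⟨p1, p2, p, q, ⟨hU, h12, hp, hq⟩, hg, hu, hl⟩ := gain_nonneg hr hd hz
  rw [up_eq] at hu
  rw [gain_eq _ _ _ _ _ _ _ hd.1 hz.1] at hg
  have hg' := nonneg_of_mul_nonneg_right hg (mul_pos two_pos den_pos)
  have hup := sub_nonneg.1 (nonneg_of_mul_nonneg_right hu den_pos)
  have hlow : (p1 : ℝ) ^ 2 * prof.N r d ≤ (unitU : ℝ) ^ 2 * prof.N r (d * z) := by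
    rcases hl with h | h
    · rw [h]
      exact mul_le_mul_of_nonneg_left
        (N_anti hr (pow_le_pow_left₀ hdz (mul_le_of_le_one_right hd.1 hz.2) 2) hd1) (sq_nonneg _)
    · rw [low_eq] at h
      exact sub_nonneg.1 (nonneg_of_mul_nonneg_right h den_pos)
  have hpq : (0 : ℝ) < p * q := by positivity
  have hU0 : (0 : ℝ) < unitU * (p1 + p2) := by
    have : 0 < unitU := by decide
    have : 0 < p1 := lt_of_lt_of_le this hU
    positivity
  have hch := mul_le_mul_of_nonneg_left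
    (chord_le hNd (Nat.cast_nonneg _) (Nat.cast_nonneg _) hlow hup hNc)
    (mul_nonneg (mul_nonneg zero_le_two hpq.le) (mul_nonneg hdz hd.1))
  have hl := mul_le_mul_of_nonneg_left (lam_le_symY (p := p) (q := q)
    (dC_sum_nonpos hr hc hd') hc hd') hU0.le
  rw [abs_of_nonneg hdz, abs_of_nonneg hd.1] at hl
  refine le_of_mul_le_mul_left ?_ (mul_pos hU0 hpq)
  linarith

/-- Twice `den` times the pair row. -/
def pairRow (r c d : ℝ) : ℝ :=
  2 * den * (r ^ 3 * symQ prof 14 r c d - (aCoef c * d + aCoef d * c + 2 * beta * (c * d) * r +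
    slack * r ^ 11 * (((r - 2 * c) ^ 2 + (r - 2 * d) ^ 2) / 2)))

/-- The pair row splits at the contact. -/
lemma pair_split (r m δ : ℝ) (hc : 0 ≤ m - δ) (hd : 0 ≤ m + δ) :
    pairRow r (m - δ) (m + δ) = (r - 2 * m) ^ 2 * sem ![r, m, 0] (rowQ (.x 0) (.x 1)) +
      δ ^ 2 * sem ![r, m, δ ^ 2] (rowG (.x 0) (.x 1) (.x 2)) := by
  simp only [pairRow, rowQ, rowG, hornerE, horner, sem, symQ, symT, Quart10.kerT, Quart.Prof.N,
    Quart.Prof.dN, Quart.Prof.dC, prof, aCoef, beta, den, slack, margin,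
    abs_of_nonneg hc, abs_of_nonneg hd,
    Matrix.cons_val_zero, Matrix.cons_val_one, Matrix.cons_val]
  push_cast
  ring

lemma g_lo_eq (r m w : ℝ) :
    sem ![r, m, w] rowLo = (r - 2 * m) ^ 2 * sem ![r, m, 0] (rowQ (.x 0) (.x 1)) +
      m ^ 2 * sem ![r, m, w * m ^ 2] (rowG (.x 0) (.x 1) (.x 2)) := by
  simp only [rowLo, rowQ, rowG, hornerE, horner, sem, Matrix.cons_val_zero, Matrix.cons_val_one,
    Matrix.cons_val]
  push_cast
  ring

lemma g_hi_eq (r m w : ℝ) :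
    sem ![r, m, w] rowHi = (r - 2 * m) ^ 2 * sem ![r, m, 0] (rowQ (.x 0) (.x 1)) +
      (1 - m) ^ 2 * sem ![r, m, w * (1 - m) ^ 2] (rowG (.x 0) (.x 1) (.x 2)) := by
  simp only [rowHi, rowS, rowQ, rowG, hornerE, horner, sem, Matrix.cons_val_zero,
    Matrix.cons_val_one, Matrix.cons_val]
  push_cast
  ring

lemma g_far_eq (r m w : ℝ) :
    sem ![r, m, w] rowFar = 16 * sem ![r, m, 0] (rowQ (.x 0) (.x 1)) +
      sem ![r, m, w * (1 - m) ^ 2] (rowG (.x 0) (.x 1) (.x 2)) := by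
  simp only [rowFar, rowS, rowQ, rowG, hornerE, horner, sem, Matrix.cons_val_zero,
    Matrix.cons_val_one, Matrix.cons_val]
  push_cast
  ring

lemma g_cone_eq (x m w r : ℝ) (hr : r = 2 * m + (1 - m) * (8 * x - 4)) :
    sem ![x, m, w] rowCone = (8 * x - 4) ^ 2 * sem ![r, m, 0] (rowQ (.x 0) (.x 1)) +
        sem ![r, m, w * (1 - m) ^ 2] (rowG (.x 0) (.x 1) (.x 2)) ∧
      sem ![x, m, w] rowCone1 = (8 * x - 4) ^ 2 * sem ![r, m, 0] (rowQ (.x 0) (.x 1)) +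
        w * sem ![r, m, w * (1 - m) ^ 2] (rowG (.x 0) (.x 1) (.x 2)) := by
  subst hr
  constructor <;>
  · simp only [rowCone, rowCone1, coneR, rowS, rowQ, rowG, hornerE, horner, sem,
      Matrix.cons_val_zero, Matrix.cons_val_one, Matrix.cons_val]
    push_cast
    ring

/-- A combination of two nonnegative rows. -/
lemma combine {D G δ d : ℝ} (hδ : δ ^ 2 ≤ d ^ 2) (hD : 0 ≤ D) (hH : 0 ≤ D + d ^ 2 * G) :
    0 ≤ D + δ ^ 2 * G := by
  rcases le_or_gt 0 G with h | h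
  · exact add_nonneg hD (mul_nonneg (sq_nonneg δ) h)
  · have := mul_le_mul_of_nonpos_right hδ h.le
    linarith

lemma pairRow_nonneg {r c d : ℝ} (hr : 0 < r) (hc : c ∈ Icc (0 : ℝ) 1) (hd : d ∈ Icc (0 : ℝ) 1) :
    0 ≤ pairRow r c d := by
  obtain ⟨m, hm⟩ : ∃ m, m = (c + d) / 2 := ⟨_, rfl⟩
  obtain ⟨δ, hδ⟩ : ∃ δ, δ = (d - c) / 2 := ⟨_, rfl⟩
  have ec : c = m - δ := by rw [hm, hδ]; ring
  have ed : d = m + δ := by rw [hm, hδ]; ring
  rw [ec, ed, pair_split r m δ (ec ▸ hc.1) (ed ▸ hd.1)]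
  have hm0 : m ∈ Icc (0 : ℝ) 1 := ⟨by linarith [hc.1, hd.1], by linarith [hc.2, hd.2]⟩
  have hQ : 0 ≤ sem ![r, m, 0] (rowQ (.x 0) (.x 1)) :=
    (q_nonneg hr hm0 ⟨le_rfl, zero_le_one⟩ : 0 ≤ sem ![r, m, 0] rowQ0)
  have hD := mul_nonneg (sq_nonneg (r - 2 * m)) hQ
  have unit : ∀ D : ℝ, δ ^ 2 ≤ D ^ 2 → δ ^ 2 / D ^ 2 ∈ Icc (0 : ℝ) 1 ∧ δ ^ 2 / D ^ 2 * D ^ 2 = δ ^ 2 :=
    fun D hD => by
      refine ⟨⟨by positivity, div_le_one_of_le₀ hD (sq_nonneg D)⟩, ?_⟩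
      rcases eq_or_ne (D ^ 2) 0 with h | h
      · rw [h] at hD ⊢
        simp [le_antisymm hD (sq_nonneg δ)]
      · exact div_mul_cancel₀ _ h
  rcases le_total m (1 / 2) with h | h
  · have hδm : δ ^ 2 ≤ m ^ 2 := sq_le_sq.2 (by
      rw [abs_of_nonneg hm0.1, abs_le]; constructor <;> linarith [hc.1, hd.1])
    obtain ⟨hw, hw'⟩ := unit m hδm
    have h1 := lo_nonneg (r := r) hr ⟨hm0.1, h⟩ hw
    rw [g_lo_eq, hw'] at h1
    exact combine hδm hD h1
  have hδm : δ ^ 2 ≤ (1 - m) ^ 2 := sq_le_sq.2 (by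
    rw [abs_of_nonneg (by linarith [hm0.2] : 0 ≤ 1 - m), abs_le]
    constructor <;> linarith [hc.2, hd.2])
  obtain ⟨hw, hw'⟩ := unit (1 - m) hδm
  rcases hi_nonneg (r := r) hr ⟨h, hm0.2⟩ hw with h1 | ⟨hm4, h1⟩
  · rw [g_hi_eq, hw'] at h1
    exact combine hδm hD h1
  rcases le_or_gt (4 * (1 - m)) |r - 2 * m| with hfar | hnear
  · rw [g_far_eq, hw'] at h1
    refine combine hδm hD ?_
    have h16 : (4 * (1 - m)) ^ 2 ≤ (r - 2 * m) ^ 2 :=
      sq_le_sq.2 ((abs_of_nonneg (by linarith [hm0.2])).le.trans hfar)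
    linarith [mul_le_mul_of_nonneg_right h16 hQ, mul_nonneg (sq_nonneg (1 - m)) h1]
  have he : 0 < 1 - m := by
    have := (abs_nonneg (r - 2 * m)).trans_lt hnear
    linarith
  rw [abs_lt] at hnear
  obtain ⟨x, hx⟩ : ∃ x, x = ((r - 2 * m) / (1 - m) + 4) / 8 := ⟨_, rfl⟩
  have hs : 8 * x - 4 = (r - 2 * m) / (1 - m) := by rw [hx]; ring
  have hxI : x ∈ Icc (0 : ℝ) 1 := by
    have h4 : -4 ≤ (r - 2 * m) / (1 - m) ∧ (r - 2 * m) / (1 - m) ≤ 4 :=
      ⟨(le_div_iff₀ he).2 (by linarith [hnear.1]), (div_le_iff₀ he).2 (by linarith [hnear.2])⟩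
    constructor <;> linarith [h4.1, h4.2]
  have hsq : (1 - m) ^ 2 * (8 * x - 4) ^ 2 = (r - 2 * m) ^ 2 := by
    rw [hs]
    field_simp
  obtain ⟨eC, eC1⟩ := g_cone_eq x m (δ ^ 2 / (1 - m) ^ 2) r (by rw [hs]; field_simp; ring)
  rw [hw'] at eC eC1
  have hwG : δ ^ 2 / (1 - m) ^ 2 * (1 - m) ^ 2 = δ ^ 2 := hw'
  rcases cone_nonneg hxI ⟨hm4, hm0.2⟩ hw with h2 | h2
  · rw [eC] at h2
    refine combine hδm hD ?_
    have := mul_nonneg (sq_nonneg (1 - m)) h2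
    rw [mul_add, ← mul_assoc, hsq] at this
    exact this
  · rw [eC1] at h2
    have := mul_nonneg (sq_nonneg (1 - m)) h2
    rw [mul_add, ← mul_assoc, hsq, ← mul_assoc, mul_comm ((1 - m) ^ 2), hwG] at this
    exact this

lemma gain_margin {r c d : ℝ} (hr : 0 < r) (hc : 0 ≤ c) (hcd : c ≤ d) (hd : d ≤ 1) :
    slack * r ^ 10 ≤ symY prof 14 r c d +
      2 * (c * d) * Real.sqrt (prof.N r c * prof.N r d) := by
  obtain ⟨z, hz, e⟩ : ∃ z ∈ Icc (0 : ℝ) 1, c = d * z := by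
    rcases (hc.trans hcd).eq_or_lt with h | h
    · exact ⟨0, ⟨le_rfl, zero_le_one⟩, by rw [← h]; linarith⟩
    · exact ⟨c / d, ⟨div_nonneg hc h.le, (div_le_one h).2 hcd⟩, (mul_div_cancel₀ c h.ne').symm⟩
  rw [e]
  exact gain_fact hr ⟨hc.trans hcd, hd⟩ hz

lemma mixed_margin {r c d : ℝ} (hr : 0 < r) (hc : c ∈ Icc (0 : ℝ) 1) (hd : d ∈ Icc (0 : ℝ) 1) :
    2 * (c * d) * prof.N r 0 + slack * r ^ 10 ≤ symY prof 14 r c (-d) := by
  obtain ⟨p, q, hp, hq, h⟩ := mix_nonneg (r := r) hr hc hd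
  rw [mix_eq p q r c d hc.1 hd.1] at h
  have h' := nonneg_of_mul_nonneg_right h (mul_pos two_pos den_pos)
  have hc' : c ∈ Icc (-1 : ℝ) 1 := ⟨by linarith [hc.1], hc.2⟩
  have hd' : -d ∈ Icc (-1 : ℝ) 1 := ⟨by linarith [hd.2], by linarith [hd.1]⟩
  have hl := lam_le_symY (p := p) (q := q) (dC_sum_nonpos hr hc' hd') hc' hd'
  rw [abs_of_nonneg hc.1, abs_neg, abs_of_nonneg hd.1] at hl
  refine le_of_mul_le_mul_left (a := (p : ℝ) * q) ?_ (by positivity)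
  linarith

lemma outward_margin {r c d : ℝ} (hr : 0 < r) (hc : c ∈ Icc (0 : ℝ) 1) (hd : d ∈ Icc (0 : ℝ) 1) :
    slack * r ^ 10 ≤ symQ prof 14 r (-c) (-d) := by
  have h := out_nonneg (r := r) hr hc hd
  rw [out_eq r c d hc.1 hd.1] at h
  exact sub_nonneg.1 (nonneg_of_mul_nonneg_right h (mul_pos two_pos den_pos))

lemma pair_margin {r c d : ℝ} (hr : 0 < r) (hc : c ∈ Ioc (0 : ℝ) 1) (hd : d ∈ Ioc (0 : ℝ) 1) :
    aCoef c * d + aCoef d * c + 2 * beta * (c * d) * r +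
        slack * r ^ 11 * (((r - 2 * c) ^ 2 + (r - 2 * d) ^ 2) / 2) ≤
      r ^ 3 * symQ prof 14 r c d := by
  have h := pairRow_nonneg hr (Ioc_subset_Icc_self hc) (Ioc_subset_Icc_self hd)
  exact sub_nonneg.1 (nonneg_of_mul_nonneg_right h (mul_pos two_pos den_pos))

/-- The margins of the facts. -/
lemma margins : Quart10.Margins 14 aCoef beta slack prof where
  gain _ hr _ _ hc hcd hd := gain_margin hr hc hcd hd
  mixed _ hr _ hc _ hd := mixed_margin hr hc hd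
  outward _ hr _ hc _ hd := outward_margin hr hc hd
  pair _ hr _ hc _ hd := pair_margin hr hc hd

lemma facts : Quart10.Facts 14 aCoef beta prof where
  rim r hr := rim_pos hr
  slope r hr := slopes hr
  gain r hr c d hc hcd hd :=
    (mul_nonneg slack_pos.le (pow_nonneg hr.le 10)).trans (gain_margin hr hc hcd hd)
  mixed r hr c hc d hd := by
    linarith [mixed_margin hr hc hd, mul_nonneg slack_pos.le (pow_nonneg hr.le 10)]
  outward r hr c hc d hd :=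
    (mul_nonneg slack_pos.le (pow_nonneg hr.le 10)).trans (outward_margin hr hc hd)
  mono := by
    have hd : ∀ r : ℝ, HasDerivAt (fun x => x ^ 3 * prof.P0 x)
        (r ^ 2 * (r * prof.D0 r + 3 * prof.P0 r)) r := fun r => by
      refine ((hasDerivAt_pow 3 r).mul (smooth_prof.deriv0 r)).congr_deriv ?_
      push_cast
      ring
    refine monotoneOn_of_hasDerivWithinAt_nonneg (convex_Ioi 0)
      (fun r _ => (hd r).continuousAt.continuousWithinAt) (fun r _ => (hd r).hasDerivWithinAt)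
      fun r hr => ?_
    rw [interior_Ioi, mem_Ioi] at hr
    have h := mono_nonneg (r := r) (y := 0) (z := 0) hr ⟨le_rfl, zero_le_one⟩
      ⟨le_rfl, zero_le_one⟩
    rw [mono_eq] at h
    exact mul_nonneg (sq_nonneg r) (nonneg_of_mul_nonneg_right h den_pos)
  pair r hr c hc d hd := by
    have := mul_nonneg (mul_nonneg slack_pos.le (pow_nonneg hr.le 11))
      (show 0 ≤ ((r - 2 * c) ^ 2 + (r - 2 * d) ^ 2) / 2 by positivity)
    simp only [Nat.reduceSub]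
    linarith [pair_margin hr hc hd]

lemma aCoef_nonpos {c : ℝ} (hc : c ∈ Icc (0 : ℝ) 1) : aCoef c ≤ 0 := by
  have h := aRow_nonneg (y := c) hc
  have h1 := mul_nonneg hc.1 h
  rw [a_eq, ← mul_neg] at h1
  exact neg_nonneg.1 (nonneg_of_mul_nonneg_right h1 den_pos)

end Vale.Agent.P219.CH.Flat.Fourteen
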