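import Vale.Agent.P219.Flat.Fourteen.Boxes
import Vale.Agent.P219.Flat.Fourteen.BoxesCone
import Vale.Agent.P219.Flat.Fourteen.BoxesGain
import Vale.Agent.P219.Flat.Fourteen.BoxesHigh
import Vale.Agent.P219.Flat.Fourteen.BoxesPair

/-!
# P219, dimension fourteen: the rows on their domains
-/

noncomputable section

namespace Vale.Agent.P219.CH.Flat.Fourteen

open Set Vale.Agent.P219.Poly Vale.Agent.P219.Poly.E

lemma rootR_q : ∀ k, 0 < (rootR k).q := by decide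

lemma unit_mem {z : ℝ} (hz : z ∈ Icc (0 : ℝ) 1) : unitSide.Mem z := by
  simpa [unitSide, Side.Mem] using hz

lemma exists_rootR {r : ℝ} (hr : 0 < r) : ∃ k, (rootR k).Mem r := by
  rcases le_total r 1 with h | h
  · exact ⟨0, by simp [rootR, Side.Mem, hr.le, h]⟩
  rcases le_total r 2 with h2 | h2
  · refine ⟨1, ?_⟩
    simp [rootR, Side.Mem, h]
    linarith
  · exact ⟨2, by simp [rootR, Side.Mem, hr, h2]⟩

/-- Three checked trees give their rows on the whole range of the distance. -/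
lemma cover {α : Type} {good : α → Bool} {rows : α → List E} {s : Side} (hs : 0 < s.q)
    {t : Fin 3 → Subdiv α} (h : ∀ k, Subdiv.ok good rows (t k) (root k s) = true)
    {r y z : ℝ} (hr : 0 < r) (hy : s.Mem y) (hz : z ∈ Icc (0 : ℝ) 1) :
    ∃ v, good v = true ∧ ∀ p ∈ rows v, 0 ≤ sem ![r, y, z] p := by
  obtain ⟨k, hk⟩ := exists_rootR hr
  refine Subdiv.sound (t k) _ (h k) (fun i => ?_) _ fun i => ?_
  · fin_cases i
    exacts [rootR_q k, hs, Nat.one_pos]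
  · fin_cases i
    exacts [hk, hy, unit_mem hz]

/-- The same for one row. -/
lemma cover_one {p : E} {s : Side} (hs : 0 < s.q) {t : Fin 3 → Subdiv Unit}
    (h : ∀ k, Subdiv.ok unitGood (fun _ => [p]) (t k) (root k s) = true)
    {r y z : ℝ} (hr : 0 < r) (hy : s.Mem y) (hz : z ∈ Icc (0 : ℝ) 1) :
    0 ≤ sem ![r, y, z] p := by
  obtain ⟨-, -, hp⟩ := cover hs h hr hy hz
  exact hp p (List.mem_singleton_self p)

variable {r y z : ℝ}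

lemma rim_nonneg (hr : 0 < r) (hy : y ∈ Icc (0 : ℝ) 1) (hz : z ∈ Icc (0 : ℝ) 1) :
    0 ≤ sem ![r, y, z] rowRim :=
  cover_one (t := ![rim0T, rim1T, rim2T]) Nat.one_pos
    (Fin.forall_fin_succ.2 ⟨rim0_ok, Fin.forall_fin_two.2 ⟨rim1_ok, rim2_ok⟩⟩) hr (unit_mem hy) hz

lemma sl2_nonneg (hr : 0 < r) (hy : y ∈ Icc (0 : ℝ) 1) (hz : z ∈ Icc (0 : ℝ) 1) :
    0 ≤ sem ![r, y, z] rowSl2 :=
  cover_one (t := ![sl20T, sl21T, sl22T]) Nat.one_pos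
    (Fin.forall_fin_succ.2 ⟨sl20_ok, Fin.forall_fin_two.2 ⟨sl21_ok, sl22_ok⟩⟩) hr (unit_mem hy) hz

lemma sl4_nonneg (hr : 0 < r) (hy : y ∈ Icc (0 : ℝ) 1) (hz : z ∈ Icc (0 : ℝ) 1) :
    0 ≤ sem ![r, y, z] rowSl4 :=
  cover_one (t := ![sl40T, sl41T, sl42T]) Nat.one_pos
    (Fin.forall_fin_succ.2 ⟨sl40_ok, Fin.forall_fin_two.2 ⟨sl41_ok, sl42_ok⟩⟩) hr (unit_mem hy) hz

lemma mono_nonneg (hr : 0 < r) (hy : y ∈ Icc (0 : ℝ) 1) (hz : z ∈ Icc (0 : ℝ) 1) :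
    0 ≤ sem ![r, y, z] rowMono :=
  cover_one (t := ![mono0T, mono1T, mono2T]) Nat.one_pos
    (Fin.forall_fin_succ.2 ⟨mono0_ok, Fin.forall_fin_two.2 ⟨mono1_ok, mono2_ok⟩⟩) hr (unit_mem hy)
    hz

lemma q_nonneg (hr : 0 < r) (hy : y ∈ Icc (0 : ℝ) 1) (hz : z ∈ Icc (0 : ℝ) 1) :
    0 ≤ sem ![r, y, z] rowQ0 :=
  cover_one (t := ![q0T, q1T, q2T]) Nat.one_pos
    (Fin.forall_fin_succ.2 ⟨q0_ok, Fin.forall_fin_two.2 ⟨q1_ok, q2_ok⟩⟩) hr (unit_mem hy) hz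

lemma out_nonneg (hr : 0 < r) (hy : y ∈ Icc (0 : ℝ) 1) (hz : z ∈ Icc (0 : ℝ) 1) :
    0 ≤ sem ![r, y, z] rowOut :=
  cover_one (t := ![out0T, out1T, out2T]) Nat.one_pos
    (Fin.forall_fin_succ.2 ⟨out0_ok, Fin.forall_fin_two.2 ⟨out1_ok, out2_ok⟩⟩) hr (unit_mem hy) hz

lemma lo_nonneg (hr : 0 < r) (hy : y ∈ Icc (0 : ℝ) (1 / 2)) (hz : z ∈ Icc (0 : ℝ) 1) :
    0 ≤ sem ![r, y, z] rowLo := by
  refine cover_one (s := loSide) (t := ![lo0T, lo1T, lo2T]) Nat.two_pos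
    (Fin.forall_fin_succ.2 ⟨lo0_ok, Fin.forall_fin_two.2 ⟨lo1_ok, lo2_ok⟩⟩) hr ?_ hz
  simp [loSide, Side.Mem]
  constructor <;> linarith [hy.1, hy.2]

lemma aRow_nonneg (hy : y ∈ Icc (0 : ℝ) 1) : 0 ≤ sem ![0, y, 0] rowA := by
  obtain ⟨-, -, hp⟩ := Subdiv.sound aRow0T _ aRow0_ok (fun i => by fin_cases i <;> decide)
    ![0, y, 0] fun i => by
      fin_cases i
      · simp [root, rootR, Side.Mem]
      · simpa [root] using unit_mem hy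
      · simp [root, unitSide, Side.Mem]
  exact hp _ (List.mem_singleton_self _)

lemma mix_nonneg (hr : 0 < r) (hy : y ∈ Icc (0 : ℝ) 1) (hz : z ∈ Icc (0 : ℝ) 1) :
    ∃ p q : ℕ, 0 < p ∧ 0 < q ∧ 0 ≤ sem ![r, y, z] (rowMix p q) := by
  obtain ⟨⟨p, q⟩, hg, hp⟩ := cover (t := ![mix0T, mix1T, mix2T]) Nat.one_pos
    (Fin.forall_fin_succ.2 ⟨mix0_ok, Fin.forall_fin_two.2 ⟨mix1_ok, mix2_ok⟩⟩) hr (unit_mem hy) hz
  rw [mixGood, decide_eq_true_eq] at hg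
  exact ⟨p, q, hg.1, hg.2, hp _ (by simp [mixRows])⟩

lemma gain_nonneg (hr : 0 < r) (hy : y ∈ Icc (0 : ℝ) 1) (hz : z ∈ Icc (0 : ℝ) 1) :
    ∃ p1 p2 p q : ℕ, (unitU ≤ p1 ∧ p1 ≤ p2 ∧ 0 < p ∧ 0 < q) ∧
      0 ≤ sem ![r, y, z] (rowGain p1 p2 p q) ∧ 0 ≤ sem ![r, y, z] (rowUp p2) ∧
      (p1 = unitU ∨ 0 ≤ sem ![r, y, z] (rowLow p1)) := by
  obtain ⟨⟨p1, p2, p, q⟩, hg, hp⟩ := cover (t := ![gain0T, gain1T, gain2T]) Nat.one_pos
    (Fin.forall_fin_succ.2 ⟨gain0_ok, Fin.forall_fin_two.2 ⟨gain1_ok, gain2_ok⟩⟩) hr (unit_mem hy)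
    hz
  rw [gainGood, decide_eq_true_eq] at hg
  refine ⟨p1, p2, p, q, hg, hp _ ?_, hp _ ?_, ?_⟩
  · simp only [gainRows]
    by_cases h : p1 = unitU <;> simp [h]
  · simp only [gainRows]
    by_cases h : p1 = unitU <;> simp [h]
  · rcases eq_or_ne p1 unitU with h | h
    · exact Or.inl h
    · exact Or.inr (hp _ (by simp [gainRows, h]))

lemma cone_nonneg {x : ℝ} (hx : x ∈ Icc (0 : ℝ) 1) (hy : y ∈ Icc (3 / 4 : ℝ) 1)
    (hz : z ∈ Icc (0 : ℝ) 1) :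
    0 ≤ sem ![x, y, z] rowCone ∨ 0 ≤ sem ![x, y, z] rowCone1 := by
  obtain ⟨v, -, hp⟩ := Subdiv.sound cone0T _ cone0_ok (fun i => by fin_cases i <;> decide)
    ![x, y, z] fun i => by
      fin_cases i
      · simpa [coneRoot] using unit_mem hx
      · simp [coneRoot, Side.Mem]
        constructor <;> linarith [hy.1, hy.2]
      · simpa [coneRoot] using unit_mem hz
  cases v
  · exact Or.inr (hp _ (by simp [coneRows]))
  · exact Or.inl (hp _ (by simp [coneRows]))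

lemma hi_nonneg (hr : 0 < r) (hy : y ∈ Icc (1 / 2 : ℝ) 1) (hz : z ∈ Icc (0 : ℝ) 1) :
    0 ≤ sem ![r, y, z] rowHi ∨ (3 / 4 ≤ y ∧ 0 ≤ sem ![r, y, z] rowFar) := by
  have hs : hiSide.Mem y := by
    simp [hiSide, Side.Mem]
    constructor <;> linarith [hy.1, hy.2]
  obtain ⟨v, -, hp⟩ := cover (s := hiSide) (t := ![hi0T, hi1T, hi2T]) Nat.two_pos
    (Fin.forall_fin_succ.2 ⟨hi0_ok, Fin.forall_fin_two.2 ⟨hi1_ok, hi2_ok⟩⟩) hr hs hz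
  cases v
  · refine Or.inr ⟨?_, hp _ (by simp [hiRows])⟩
    have h := hp (.add (.mul (.k 4) (.x 1)) (.k (-3))) (by simp [hiRows])
    simp [sem] at h
    linarith
  · exact Or.inl (hp _ (by simp [hiRows]))

end Vale.Agent.P219.CH.Flat.Fourteen
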