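import Vale.Agent.P219.Flat.Fourteen.Defs

/-!
# P219, dimension fourteen: the subdivisions
-/

namespace Vale.Agent.P219.CH.Flat.Fourteen

open Vale.Agent.P219.Poly Vale.Agent.P219.Poly.E Vale.Agent.P219.Poly.E.Subdiv

/-- No condition. -/
def unitGood (_ : Unit) : Bool := true

/-- No condition. -/
def boolGood (_ : Bool) : Bool := true

/-- The parameters of a gain leaf are in range. -/
def gainGood : ℕ × ℕ × ℕ × ℕ → Bool
  | (p1, p2, p, q) => decide (unitU ≤ p1 ∧ p1 ≤ p2 ∧ 0 < p ∧ 0 < q)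

/-- The rows of a gain leaf. -/
def gainRows : ℕ × ℕ × ℕ × ℕ → List E
  | (p1, p2, p, q) =>
    if p1 = unitU then [rowGain p1 p2 p q, rowUp p2]
    else [rowGain p1 p2 p q, rowUp p2, rowLow p1]

/-- The weights of a mixed leaf are positive. -/
def mixGood : ℕ × ℕ → Bool
  | (p, q) => decide (0 < p ∧ 0 < q)

/-- The row of a mixed leaf. -/
def mixRows : ℕ × ℕ → List E
  | (p, q) => [rowMix p q]

/-- The rows above the half: the full row, or the row away from the corner. -/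
def hiRows : Bool → List E
  | true => [rowHi]
  | false => [rowFar, .add (.mul (.k 4) (.x 1)) (.k (-3))]

/-- The rows in the corner. -/
def coneRows : Bool → List E
  | true => [rowCone]
  | false => [rowCone1]

/-- The unit interval. -/
def unitSide : Side := ⟨false, 0, 1⟩

/-- The interval below the half. -/
def loSide : Side := ⟨false, 0, 2⟩

/-- The interval above the half. -/
def hiSide : Side := ⟨false, 1, 2⟩

/-- The three ranges of the distance. -/
def rootR : Fin 3 → Side := ![⟨false, 0, 1⟩, ⟨false, 1, 1⟩, ⟨true, 0, 1⟩]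

/-- The root boxes. -/
def root (k : Fin 3) (y : Side) : Fin 3 → Side := ![rootR k, y, unitSide]

/-- The box of the corner. -/
def coneRoot : Fin 3 → Side := ![unitSide, ⟨false, 3, 4⟩, unitSide]

/-- A subdivision for the rim row. -/
def rim0T : Subdiv Unit :=
  .node 0 (.leaf ()) (.leaf ())

/-- A subdivision for the rim row. -/
def rim1T : Subdiv Unit :=
  .leaf ()

/-- A subdivision for the rim row. -/
def rim2T : Subdiv Unit :=
  .leaf ()

/-- A subdivision for the sl2 row. -/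
def sl20T : Subdiv Unit :=
  .node 0 (.node 0 (.leaf ()) (.node 0 (.leaf ()) (.leaf ()))) (.leaf ())

/-- A subdivision for the sl2 row. -/
def sl21T : Subdiv Unit :=
  .leaf ()

/-- A subdivision for the sl2 row. -/
def sl22T : Subdiv Unit :=
  .leaf ()

/-- A subdivision for the sl4 row. -/
def sl40T : Subdiv Unit :=
  .node 0 (.leaf ()) (.node 0 (.node 0 (.leaf ()) (.leaf ())) (.leaf ()))

/-- A subdivision for the sl4 row. -/
def sl41T : Subdiv Unit :=
  .leaf ()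

/-- A subdivision for the sl4 row. -/
def sl42T : Subdiv Unit :=
  .leaf ()

/-- A subdivision for the mono row. -/
def mono0T : Subdiv Unit :=
  .leaf ()

/-- A subdivision for the mono row. -/
def mono1T : Subdiv Unit :=
  .leaf ()

/-- A subdivision for the mono row. -/
def mono2T : Subdiv Unit :=
  .leaf ()

/-- A subdivision for the q row. -/
def q0T : Subdiv Unit :=
  .leaf ()

/-- A subdivision for the q row. -/
def q1T : Subdiv Unit :=
  .leaf ()

/-- A subdivision for the q row. -/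
def q2T : Subdiv Unit :=
  .leaf ()

/-- A subdivision for the out row. -/
def out0T : Subdiv Unit :=
  .node 0 (.leaf ()) (.leaf ())

/-- A subdivision for the out row. -/
def out1T : Subdiv Unit :=
  .leaf ()

/-- A subdivision for the out row. -/
def out2T : Subdiv Unit :=
  .leaf ()

/-- A subdivision for the aRow row. -/
def aRow0T : Subdiv Unit :=
  .leaf ()

/-- A subdivision for the lo row. -/
def lo0T : Subdiv Unit :=
  .node 1 (.node 1 (.leaf ()) (.leaf ())) (.leaf ())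

/-- A subdivision for the lo row. -/
def lo1T : Subdiv Unit :=
  .leaf ()

/-- A subdivision for the lo row. -/
def lo2T : Subdiv Unit :=
  .leaf ()

/-- A subdivision for the hi row. -/
def hi0T : Subdiv Bool :=
  .leaf true

/-- A subdivision for the hi row. -/
def hi1T : Subdiv Bool :=
  .node 0 (.leaf true) (.node 1 (.leaf true) (.node 1 (.leaf false) (.leaf false)))

/-- A subdivision for the hi row. -/
def hi2T : Subdiv Bool :=
  .leaf true

/-- A subdivision for the gain row. -/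
def gain0T : Subdiv (ℕ × ℕ × ℕ × ℕ) :=
  .node 1 (.leaf (128, 163, 62, 64)) (.node 1 (.leaf (128, 247, 53, 64)) (.node 0 (.node 0 (.node 0 (.leaf (128, 435, 34, 64)) (.leaf (128, 355, 34, 64))) (.leaf (128, 232, 34, 64))) (.node 2 (.leaf (149, 483, 32, 64)) (.node 2 (.leaf (140, 394, 37, 64)) (.leaf (128, 282, 48, 64))))))

/-- A box of the gain row. -/
def gain1B : Fin 3 → Side :=
  root 1 unitSide

/-- A box of the gain row. -/
def gain1Ba : Fin 3 → Side :=
  setSide gain1B 1 (gain1B 1).lo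

/-- A box of the gain row. -/
def gain1Bb : Fin 3 → Side :=
  setSide gain1B 1 (gain1B 1).hi

/-- A box of the gain row. -/
def gain1Bba : Fin 3 → Side :=
  setSide gain1Bb 0 (gain1Bb 0).lo

/-- A box of the gain row. -/
def gain1Bbb : Fin 3 → Side :=
  setSide gain1Bb 0 (gain1Bb 0).hi

/-- A box of the gain row. -/
def gain1Bbaa : Fin 3 → Side :=
  setSide gain1Bba 1 (gain1Bba 1).lo

/-- A box of the gain row. -/
def gain1Bbab : Fin 3 → Side :=
  setSide gain1Bba 1 (gain1Bba 1).hi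

/-- A box of the gain row. -/
def gain1Bbaba : Fin 3 → Side :=
  setSide gain1Bbab 1 (gain1Bbab 1).lo

/-- A box of the gain row. -/
def gain1Bbabb : Fin 3 → Side :=
  setSide gain1Bbab 1 (gain1Bbab 1).hi

/-- A box of the gain row. -/
def gain1Bbabba : Fin 3 → Side :=
  setSide gain1Bbabb 0 (gain1Bbabb 0).lo

/-- A box of the gain row. -/
def gain1Bbabbb : Fin 3 → Side :=
  setSide gain1Bbabb 0 (gain1Bbabb 0).hi

/-- A box of the gain row. -/
def gain1Bbabbaa : Fin 3 → Side :=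
  setSide gain1Bbabba 2 (gain1Bbabba 2).lo

/-- A box of the gain row. -/
def gain1Bbabbab : Fin 3 → Side :=
  setSide gain1Bbabba 2 (gain1Bbabba 2).hi

/-- A box of the gain row. -/
def gain1Bbabbaaa : Fin 3 → Side :=
  setSide gain1Bbabbaa 1 (gain1Bbabbaa 1).lo

/-- A box of the gain row. -/
def gain1Bbabbaab : Fin 3 → Side :=
  setSide gain1Bbabbaa 1 (gain1Bbabbaa 1).hi

/-- A box of the gain row. -/
def gain1Bbabbaaba : Fin 3 → Side :=
  setSide gain1Bbabbaab 1 (gain1Bbabbaab 1).lo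

/-- A box of the gain row. -/
def gain1Bbabbaabb : Fin 3 → Side :=
  setSide gain1Bbabbaab 1 (gain1Bbabbaab 1).hi

/-- A box of the gain row. -/
def gain1Bbabbaba : Fin 3 → Side :=
  setSide gain1Bbabbab 2 (gain1Bbabbab 2).lo

/-- A box of the gain row. -/
def gain1Bbabbabb : Fin 3 → Side :=
  setSide gain1Bbabbab 2 (gain1Bbabbab 2).hi

/-- A box of the gain row. -/
def gain1Bbabbabaa : Fin 3 → Side :=
  setSide gain1Bbabbaba 1 (gain1Bbabbaba 1).lo

/-- A box of the gain row. -/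
def gain1Bbabbabab : Fin 3 → Side :=
  setSide gain1Bbabbaba 1 (gain1Bbabbaba 1).hi

/-- A box of the gain row. -/
def gain1Bbabbba : Fin 3 → Side :=
  setSide gain1Bbabbb 1 (gain1Bbabbb 1).lo

/-- A box of the gain row. -/
def gain1Bbabbbb : Fin 3 → Side :=
  setSide gain1Bbabbb 1 (gain1Bbabbb 1).hi

/-- A box of the gain row. -/
def gain1Bbabbbaa : Fin 3 → Side :=
  setSide gain1Bbabbba 2 (gain1Bbabbba 2).lo

/-- A box of the gain row. -/
def gain1Bbabbbab : Fin 3 → Side :=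
  setSide gain1Bbabbba 2 (gain1Bbabbba 2).hi

/-- A box of the gain row. -/
def gain1Bbabbbaba : Fin 3 → Side :=
  setSide gain1Bbabbbab 2 (gain1Bbabbbab 2).lo

/-- A box of the gain row. -/
def gain1Bbabbbabb : Fin 3 → Side :=
  setSide gain1Bbabbbab 2 (gain1Bbabbbab 2).hi

/-- A box of the gain row. -/
def gain1Bbabbbba : Fin 3 → Side :=
  setSide gain1Bbabbbb 2 (gain1Bbabbbb 2).lo

/-- A box of the gain row. -/
def gain1Bbabbbbb : Fin 3 → Side :=
  setSide gain1Bbabbbb 2 (gain1Bbabbbb 2).hi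

/-- A box of the gain row. -/
def gain1Bbabbbbaa : Fin 3 → Side :=
  setSide gain1Bbabbbba 2 (gain1Bbabbbba 2).lo

/-- A box of the gain row. -/
def gain1Bbabbbbab : Fin 3 → Side :=
  setSide gain1Bbabbbba 2 (gain1Bbabbbba 2).hi

/-- A box of the gain row. -/
def gain1Bbabbbbaba : Fin 3 → Side :=
  setSide gain1Bbabbbbab 0 (gain1Bbabbbbab 0).lo

/-- A box of the gain row. -/
def gain1Bbabbbbabb : Fin 3 → Side :=
  setSide gain1Bbabbbbab 0 (gain1Bbabbbbab 0).hi

/-- A box of the gain row. -/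
def gain1Bbabbbbabaa : Fin 3 → Side :=
  setSide gain1Bbabbbbaba 1 (gain1Bbabbbbaba 1).lo

/-- A box of the gain row. -/
def gain1Bbabbbbabab : Fin 3 → Side :=
  setSide gain1Bbabbbbaba 1 (gain1Bbabbbbaba 1).hi

/-- A box of the gain row. -/
def gain1Bbabbbbba : Fin 3 → Side :=
  setSide gain1Bbabbbbb 0 (gain1Bbabbbbb 0).lo

/-- A box of the gain row. -/
def gain1Bbabbbbbb : Fin 3 → Side :=
  setSide gain1Bbabbbbb 0 (gain1Bbabbbbb 0).hi

/-- A box of the gain row. -/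
def gain1Bbabbbbbaa : Fin 3 → Side :=
  setSide gain1Bbabbbbba 2 (gain1Bbabbbbba 2).lo

/-- A box of the gain row. -/
def gain1Bbabbbbbab : Fin 3 → Side :=
  setSide gain1Bbabbbbba 2 (gain1Bbabbbbba 2).hi

/-- A box of the gain row. -/
def gain1Bbabbbbbaaa : Fin 3 → Side :=
  setSide gain1Bbabbbbbaa 1 (gain1Bbabbbbbaa 1).lo

/-- A box of the gain row. -/
def gain1Bbabbbbbaab : Fin 3 → Side :=
  setSide gain1Bbabbbbbaa 1 (gain1Bbabbbbbaa 1).hi

/-- A box of the gain row. -/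
def gain1Bbabbbbbba : Fin 3 → Side :=
  setSide gain1Bbabbbbbb 1 (gain1Bbabbbbbb 1).lo

/-- A box of the gain row. -/
def gain1Bbabbbbbbb : Fin 3 → Side :=
  setSide gain1Bbabbbbbb 1 (gain1Bbabbbbbb 1).hi

/-- A box of the gain row. -/
def gain1Bbba : Fin 3 → Side :=
  setSide gain1Bbb 1 (gain1Bbb 1).lo

/-- A box of the gain row. -/
def gain1Bbbb : Fin 3 → Side :=
  setSide gain1Bbb 1 (gain1Bbb 1).hi

/-- A box of the gain row. -/
def gain1Bbbba : Fin 3 → Side :=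
  setSide gain1Bbbb 2 (gain1Bbbb 2).lo

/-- A box of the gain row. -/
def gain1Bbbbb : Fin 3 → Side :=
  setSide gain1Bbbb 2 (gain1Bbbb 2).hi

/-- A box of the gain row. -/
def gain1Bbbbba : Fin 3 → Side :=
  setSide gain1Bbbbb 1 (gain1Bbbbb 1).lo

/-- A box of the gain row. -/
def gain1Bbbbbb : Fin 3 → Side :=
  setSide gain1Bbbbb 1 (gain1Bbbbb 1).hi

/-- A box of the gain row. -/
def gain1Bbbbbba : Fin 3 → Side :=
  setSide gain1Bbbbbb 2 (gain1Bbbbbb 2).lo

/-- A box of the gain row. -/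
def gain1Bbbbbbb : Fin 3 → Side :=
  setSide gain1Bbbbbb 2 (gain1Bbbbbb 2).hi

/-- A box of the gain row. -/
def gain1Bbbbbbba : Fin 3 → Side :=
  setSide gain1Bbbbbbb 1 (gain1Bbbbbbb 1).lo

/-- A box of the gain row. -/
def gain1Bbbbbbbb : Fin 3 → Side :=
  setSide gain1Bbbbbbb 1 (gain1Bbbbbbb 1).hi

/-- A subdivision for the gain row. -/
def gain1Ta : Subdiv (ℕ × ℕ × ℕ × ℕ) :=
  .leaf (128, 158, 62, 64)

/-- A subdivision for the gain row. -/
def gain1Tbaa : Subdiv (ℕ × ℕ × ℕ × ℕ) :=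
  .leaf (128, 220, 53, 64)

/-- A subdivision for the gain row. -/
def gain1Tbaba : Subdiv (ℕ × ℕ × ℕ × ℕ) :=
  .node 2 (.leaf (154, 295, 38, 64)) (.node 0 (.node 2 (.leaf (153, 253, 43, 64)) (.leaf (128, 201, 53, 64))) (.node 2 (.leaf (143, 201, 43, 64)) (.node 2 (.leaf (136, 172, 50, 64)) (.node 1 (.leaf (128, 146, 59, 64)) (.node 0 (.leaf (128, 152, 56, 64)) (.leaf (128, 145, 56, 64)))))))

/-- A subdivision for the gain row. -/
def gain1Tbabbaaa : Subdiv (ℕ × ℕ × ℕ × ℕ) :=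
  .leaf (200, 364, 28, 64)

/-- A subdivision for the gain row. -/
def gain1Tbabbaaba : Subdiv (ℕ × ℕ × ℕ × ℕ) :=
  .node 2 (.leaf (247, 415, 20, 64)) (.node 1 (.leaf (224, 372, 22, 64)) (.node 0 (.leaf (280, 397, 19, 64)) (.node 2 (.leaf (246, 337, 19, 64)) (.leaf (231, 320, 20, 64)))))

/-- A subdivision for the gain row. -/
def gain1Tbabbaabb : Subdiv (ℕ × ℕ × ℕ × ℕ) :=
  .node 2 (.leaf (266, 486, 11, 64)) (.node 2 (.leaf (255, 464, 12, 64)) (.node 1 (.node 0 (.leaf (296, 401, 15, 64)) (.leaf (240, 341, 15, 64))) (.node 2 (.leaf (258, 436, 9, 64)) (.leaf (249, 418, 9, 64)))))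

/-- A subdivision for the gain row. -/
def gain1Tbabbaab : Subdiv (ℕ × ℕ × ℕ × ℕ) :=
  .node 1 gain1Tbabbaaba gain1Tbabbaabb

/-- A subdivision for the gain row. -/
def gain1Tbabbaa : Subdiv (ℕ × ℕ × ℕ × ℕ) :=
  .node 1 gain1Tbabbaaa gain1Tbabbaab

/-- A subdivision for the gain row. -/
def gain1Tbabbabaa : Subdiv (ℕ × ℕ × ℕ × ℕ) :=
  .node 2 (.node 1 (.leaf (187, 276, 34, 64)) (.leaf (196, 305, 29, 64))) (.node 0 (.leaf (187, 272, 35, 64)) (.leaf (171, 243, 35, 64)))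

/-- A subdivision for the gain row. -/
def gain1Tbabbabab : Subdiv (ℕ × ℕ × ℕ × ℕ) :=
  .node 1 (.node 2 (.node 2 (.node 1 (.leaf (216, 323, 24, 64)) (.leaf (223, 343, 21, 64))) (.leaf (207, 324, 23, 64))) (.leaf (185, 302, 26, 64))) (.node 2 (.node 1 (.node 0 (.leaf (266, 366, 16, 64)) (.leaf (220, 316, 16, 64))) (.leaf (228, 397, 10, 64))) (.leaf (195, 350, 15, 64)))

/-- A subdivision for the gain row. -/
def gain1Tbabbaba : Subdiv (ℕ × ℕ × ℕ × ℕ) :=
  .node 1 gain1Tbabbabaa gain1Tbabbabab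

/-- A subdivision for the gain row. -/
def gain1Tbabbabb : Subdiv (ℕ × ℕ × ℕ × ℕ) :=
  .node 0 (.leaf (128, 285, 39, 64)) (.leaf (128, 255, 39, 64))

/-- A subdivision for the gain row. -/
def gain1Tbabbab : Subdiv (ℕ × ℕ × ℕ × ℕ) :=
  .node 2 gain1Tbabbaba gain1Tbabbabb

/-- A subdivision for the gain row. -/
def gain1Tbabba : Subdiv (ℕ × ℕ × ℕ × ℕ) :=
  .node 2 gain1Tbabbaa gain1Tbabbab

/-- A subdivision for the gain row. -/
def gain1Tbabbbaa : Subdiv (ℕ × ℕ × ℕ × ℕ) :=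
  .leaf (168, 255, 28, 64)

/-- A subdivision for the gain row. -/
def gain1Tbabbbaba : Subdiv (ℕ × ℕ × ℕ × ℕ) :=
  .node 1 (.node 2 (.leaf (160, 212, 34, 64)) (.node 0 (.leaf (159, 197, 37, 64)) (.leaf (151, 177, 37, 64)))) (.node 0 (.node 2 (.leaf (176, 225, 29, 64)) (.node 0 (.leaf (169, 208, 32, 64)) (.leaf (163, 194, 32, 64)))) (.node 2 (.leaf (164, 196, 29, 64)) (.leaf (154, 183, 32, 64))))

/-- A subdivision for the gain row. -/
def gain1Tbabbbabb : Subdiv (ℕ × ℕ × ℕ × ℕ) :=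
  .node 0 (.node 2 (.node 0 (.leaf (147, 186, 40, 64)) (.leaf (144, 176, 40, 64))) (.leaf (128, 160, 51, 64))) (.node 2 (.node 2 (.leaf (146, 168, 38, 64)) (.leaf (140, 160, 42, 64))) (.node 0 (.leaf (128, 150, 51, 64)) (.leaf (128, 147, 51, 64))))

/-- A subdivision for the gain row. -/
def gain1Tbabbbab : Subdiv (ℕ × ℕ × ℕ × ℕ) :=
  .node 2 gain1Tbabbbaba gain1Tbabbbabb

/-- A subdivision for the gain row. -/
def gain1Tbabbba : Subdiv (ℕ × ℕ × ℕ × ℕ) :=
  .node 2 gain1Tbabbbaa gain1Tbabbbab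

/-- A subdivision for the gain row. -/
def gain1Tbabbbbaa : Subdiv (ℕ × ℕ × ℕ × ℕ) :=
  .leaf (190, 302, 16, 64)

/-- A subdivision for the gain row. -/
def gain1Tbabbbbabaa : Subdiv (ℕ × ℕ × ℕ × ℕ) :=
  .node 1 (.leaf (195, 257, 22, 64)) (.node 2 (.leaf (209, 267, 19, 64)) (.leaf (199, 256, 20, 64)))

/-- A subdivision for the gain row. -/
def gain1Tbabbbbabab : Subdiv (ℕ × ℕ × ℕ × ℕ) :=
  .node 1 (.node 2 (.leaf (214, 278, 14, 64)) (.node 1 (.node 0 (.leaf (219, 261, 16, 64)) (.leaf (204, 237, 16, 64))) (.leaf (206, 267, 14, 64)))) (.node 1 (.leaf (208, 285, 11, 64)) (.leaf (211, 291, 6, 64)))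

/-- A subdivision for the gain row. -/
def gain1Tbabbbbaba : Subdiv (ℕ × ℕ × ℕ × ℕ) :=
  .node 1 gain1Tbabbbbabaa gain1Tbabbbbabab

/-- A subdivision for the gain row. -/
def gain1Tbabbbbabb : Subdiv (ℕ × ℕ × ℕ × ℕ) :=
  .node 1 (.leaf (177, 223, 21, 64)) (.leaf (182, 235, 12, 64))

/-- A subdivision for the gain row. -/
def gain1Tbabbbbab : Subdiv (ℕ × ℕ × ℕ × ℕ) :=
  .node 0 gain1Tbabbbbaba gain1Tbabbbbabb

/-- A subdivision for the gain row. -/
def gain1Tbabbbba : Subdiv (ℕ × ℕ × ℕ × ℕ) :=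
  .node 2 gain1Tbabbbbaa gain1Tbabbbbab

/-- A subdivision for the gain row. -/
def gain1Tbabbbbbaaa : Subdiv (ℕ × ℕ × ℕ × ℕ) :=
  .node 2 (.node 2 (.node 1 (.leaf (189, 232, 24, 64)) (.node 0 (.leaf (206, 241, 21, 64)) (.leaf (193, 220, 21, 64)))) (.node 0 (.leaf (193, 231, 23, 64)) (.leaf (182, 212, 23, 64)))) (.node 0 (.leaf (175, 221, 26, 64)) (.leaf (167, 204, 26, 64)))

/-- A subdivision for the gain row. -/
def gain1Tbabbbbbaab : Subdiv (ℕ × ℕ × ℕ × ℕ) :=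
  .node 1 (.node 2 (.node 1 (.node 0 (.leaf (203, 245, 18, 64)) (.leaf (190, 224, 18, 64))) (.leaf (192, 250, 15, 64))) (.leaf (173, 229, 19, 64))) (.leaf (176, 261, 10, 64))

/-- A subdivision for the gain row. -/
def gain1Tbabbbbbaa : Subdiv (ℕ × ℕ × ℕ × ℕ) :=
  .node 1 gain1Tbabbbbbaaa gain1Tbabbbbbaab

/-- A subdivision for the gain row. -/
def gain1Tbabbbbbab : Subdiv (ℕ × ℕ × ℕ × ℕ) :=
  .leaf (128, 208, 30, 64)

/-- A subdivision for the gain row. -/
def gain1Tbabbbbba : Subdiv (ℕ × ℕ × ℕ × ℕ) :=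
  .node 2 gain1Tbabbbbbaa gain1Tbabbbbbab

/-- A subdivision for the gain row. -/
def gain1Tbabbbbbba : Subdiv (ℕ × ℕ × ℕ × ℕ) :=
  .node 2 (.node 2 (.leaf (168, 205, 23, 64)) (.node 0 (.leaf (161, 191, 26, 64)) (.leaf (156, 181, 26, 64)))) (.node 2 (.leaf (143, 174, 31, 64)) (.leaf (128, 153, 43, 64)))

/-- A subdivision for the gain row. -/
def gain1Tbabbbbbbb : Subdiv (ℕ × ℕ × ℕ × ℕ) :=
  .node 2 (.node 1 (.node 2 (.leaf (172, 209, 16, 64)) (.leaf (160, 195, 19, 64))) (.leaf (161, 215, 10, 64))) (.leaf (128, 180, 22, 64))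

/-- A subdivision for the gain row. -/
def gain1Tbabbbbbb : Subdiv (ℕ × ℕ × ℕ × ℕ) :=
  .node 1 gain1Tbabbbbbba gain1Tbabbbbbbb

/-- A subdivision for the gain row. -/
def gain1Tbabbbbb : Subdiv (ℕ × ℕ × ℕ × ℕ) :=
  .node 0 gain1Tbabbbbba gain1Tbabbbbbb

/-- A subdivision for the gain row. -/
def gain1Tbabbbb : Subdiv (ℕ × ℕ × ℕ × ℕ) :=
  .node 2 gain1Tbabbbba gain1Tbabbbbb

/-- A subdivision for the gain row. -/
def gain1Tbabbb : Subdiv (ℕ × ℕ × ℕ × ℕ) :=
  .node 1 gain1Tbabbba gain1Tbabbbb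

/-- A subdivision for the gain row. -/
def gain1Tbabb : Subdiv (ℕ × ℕ × ℕ × ℕ) :=
  .node 0 gain1Tbabba gain1Tbabbb

/-- A subdivision for the gain row. -/
def gain1Tbab : Subdiv (ℕ × ℕ × ℕ × ℕ) :=
  .node 1 gain1Tbaba gain1Tbabb

/-- A subdivision for the gain row. -/
def gain1Tba : Subdiv (ℕ × ℕ × ℕ × ℕ) :=
  .node 1 gain1Tbaa gain1Tbab

/-- A subdivision for the gain row. -/
def gain1Tbba : Subdiv (ℕ × ℕ × ℕ × ℕ) :=
  .leaf (128, 164, 53, 64)

/-- A subdivision for the gain row. -/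
def gain1Tbbba : Subdiv (ℕ × ℕ × ℕ × ℕ) :=
  .leaf (146, 210, 32, 64)

/-- A subdivision for the gain row. -/
def gain1Tbbbba : Subdiv (ℕ × ℕ × ℕ × ℕ) :=
  .node 2 (.leaf (138, 169, 43, 64)) (.leaf (128, 152, 53, 64))

/-- A subdivision for the gain row. -/
def gain1Tbbbbba : Subdiv (ℕ × ℕ × ℕ × ℕ) :=
  .leaf (141, 189, 27, 64)

/-- A subdivision for the gain row. -/
def gain1Tbbbbbba : Subdiv (ℕ × ℕ × ℕ × ℕ) :=
  .node 2 (.leaf (135, 157, 40, 64)) (.node 0 (.node 0 (.leaf (128, 144, 51, 64)) (.leaf (128, 140, 51, 64))) (.leaf (128, 138, 51, 64)))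

/-- A subdivision for the gain row. -/
def gain1Tbbbbbbb : Subdiv (ℕ × ℕ × ℕ × ℕ) :=
  .node 2 (.node 1 (.leaf (135, 161, 31, 64)) (.leaf (136, 164, 19, 64))) (.node 0 (.node 0 (.leaf (128, 148, 38, 64)) (.leaf (128, 142, 38, 64))) (.leaf (128, 139, 38, 64)))

/-- A subdivision for the gain row. -/
def gain1Tbbbbbb : Subdiv (ℕ × ℕ × ℕ × ℕ) :=
  .node 1 gain1Tbbbbbba gain1Tbbbbbbb

/-- A subdivision for the gain row. -/
def gain1Tbbbbb : Subdiv (ℕ × ℕ × ℕ × ℕ) :=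
  .node 2 gain1Tbbbbba gain1Tbbbbbb

/-- A subdivision for the gain row. -/
def gain1Tbbbb : Subdiv (ℕ × ℕ × ℕ × ℕ) :=
  .node 1 gain1Tbbbba gain1Tbbbbb

/-- A subdivision for the gain row. -/
def gain1Tbbb : Subdiv (ℕ × ℕ × ℕ × ℕ) :=
  .node 2 gain1Tbbba gain1Tbbbb

/-- A subdivision for the gain row. -/
def gain1Tbb : Subdiv (ℕ × ℕ × ℕ × ℕ) :=
  .node 1 gain1Tbba gain1Tbbb

/-- A subdivision for the gain row. -/
def gain1Tb : Subdiv (ℕ × ℕ × ℕ × ℕ) :=
  .node 0 gain1Tba gain1Tbb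

/-- A subdivision for the gain row. -/
def gain1T : Subdiv (ℕ × ℕ × ℕ × ℕ) :=
  .node 1 gain1Ta gain1Tb

/-- A subdivision for the gain row. -/
def gain2T : Subdiv (ℕ × ℕ × ℕ × ℕ) :=
  .leaf (128, 174, 57, 64)

/-- A subdivision for the mix row. -/
def mix0T : Subdiv (ℕ × ℕ) :=
  .node 1 (.leaf (14, 16)) (.node 0 (.node 0 (.leaf (21, 16)) (.leaf (21, 16))) (.node 1 (.leaf (18, 16)) (.node 1 (.leaf (24, 16)) (.node 1 (.leaf (33, 16)) (.node 1 (.leaf (46, 16)) (.node 2 (.leaf (88, 16)) (.leaf (60, 16))))))))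

/-- A subdivision for the mix row. -/
def mix1T : Subdiv (ℕ × ℕ) :=
  .node 1 (.leaf (14, 16)) (.node 1 (.leaf (18, 16)) (.node 1 (.leaf (24, 16)) (.node 0 (.node 1 (.leaf (33, 16)) (.node 2 (.node 0 (.leaf (62, 16)) (.leaf (62, 16))) (.node 1 (.leaf (35, 16)) (.leaf (60, 16))))) (.leaf (40, 16)))))

/-- A subdivision for the mix row. -/
def mix2T : Subdiv (ℕ × ℕ) :=
  .leaf (16, 16)

/-- A subdivision for the cone row. -/
def cone0T : Subdiv Bool :=
  .node 0
    (.node 0 (.node 0 (.leaf true) (.leaf true)) (.node 0 (.leaf true) (.leaf true)))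
    (.node 0 (.node 0 (.node 1 (.leaf false) (.leaf false)) (.leaf true))
      (.node 0 (.leaf true) (.leaf true)))

end Vale.Agent.P219.CH.Flat.Fourteen
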